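import Vale.Agent.P054.R.Defs

/-! P054, block R, leaf BASIC: elementary facts on `rho`, `on`, `off`, `prt`. -/

set_option linter.all false
set_option autoImplicit false

namespace Vale.Agent.P054.R

open Finset Matrix

theorem bcr (a b : V3) : crossProduct a b =
    ![a 1 * b 2 - a 2 * b 1, a 2 * b 0 - a 0 * b 2, a 0 * b 1 - a 1 * b 0] := cross_apply a b

theorem bdp (a b : V3) : a ⬝ᵥ b = a 0 * b 0 + a 1 * b 1 + a 2 * b 2 := by
  simp [dotProduct, Fin.sum_univ_three]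

theorem b_ext {a b : V3} (h0 : a 0 = b 0) (h1 : a 1 = b 1) (h2 : a 2 = b 2) : a = b := by
  funext i; fin_cases i <;> assumption

theorem b_self {a : V3} (h : a ⬝ᵥ a = 0) : a = 0 := by
  rw [bdp] at h
  have h0 : a 0 * a 0 = 0 := by nlinarith [mul_self_nonneg (a 0), mul_self_nonneg (a 1), mul_self_nonneg (a 2)]
  have h1 : a 1 * a 1 = 0 := by nlinarith [mul_self_nonneg (a 0), mul_self_nonneg (a 1), mul_self_nonneg (a 2)]
  have h2 : a 2 * a 2 = 0 := by nlinarith [mul_self_nonneg (a 0), mul_self_nonneg (a 1), mul_self_nonneg (a 2)]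
  exact b_ext (mul_self_eq_zero.1 h0) (mul_self_eq_zero.1 h1) (mul_self_eq_zero.1 h2)

theorem b_par {a b : V3} (h : crossProduct a b = 0) (hb : b ≠ 0) : ∃ t : ℝ, a = t • b := by
  have hbb : b ⬝ᵥ b ≠ 0 := fun hc => hb (b_self hc)
  rw [bcr] at h
  have e0 := congrFun h 0
  have e1 := congrFun h 1
  have e2 := congrFun h 2
  simp at e0 e1 e2
  refine ⟨(a ⬝ᵥ b) / (b ⬝ᵥ b), ?_⟩
  rw [bdp] at hbb
  rw [bdp, bdp]
  apply b_ext <;>
  · simp only [Pi.smul_apply, smul_eq_mul]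
    rw [div_mul_eq_mul_div, eq_div_iff hbb]
    first
    | linear_combination b 1 * e2 - b 2 * e1
    | linear_combination b 2 * e0 - b 0 * e2
    | linear_combination b 0 * e1 - b 1 * e0

theorem b_par_cross (t : ℝ) (b : V3) : crossProduct (t • b) b = 0 := by simp

theorem off_add_on (S : Finset V3) (x b : V3) : off S x b + on S x b = S.card := by
  classical
  unfold off on
  rw [add_comm]
  convert Finset.card_filter_add_card_filter_not (s := S) (OnL x b)

/-- the infimum is attained (`Nat.sInf_mem`) -/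
theorem rho_spec (S : Finset V3) : ∃ x b : V3, b ≠ 0 ∧ off S x b = rho S := by
  have hne : {k | ∃ x b : V3, b ≠ 0 ∧ off S x b = k}.Nonempty :=
    ⟨off S 0 ![1, 0, 0], 0, ![1, 0, 0], fun h => by simpa using congrFun h 0, rfl⟩
  exact Nat.sInf_mem hne

theorem rho_le_off (S : Finset V3) (x b : V3) (hb : b ≠ 0) : rho S ≤ off S x b :=
  Nat.sInf_le ⟨x, b, hb, rfl⟩

theorem rho_mono {S T : Finset V3} (h : S ⊆ T) : rho S ≤ rho T := by
  classical
  obtain ⟨x, b, hb, he⟩ := rho_spec T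
  rw [← he]
  refine (rho_le_off S x b hb).trans ?_
  unfold off
  exact Finset.card_le_card (Finset.filter_subset_filter _ h)

theorem OnL_iff {x b a : V3} (hb : b ≠ 0) : OnL x b a ↔ ∃ t : ℝ, a = x + t • b := by
  unfold OnL
  constructor
  · intro h
    obtain ⟨t, ht⟩ := b_par h hb
    exact ⟨t, by rw [← ht]; abel⟩
  · rintro ⟨t, rfl⟩
    rw [add_sub_cancel_left]
    exact b_par_cross t b

/-- two different lines meet in at most one point -/
theorem DiffL_inter {x b x' b' : V3} (hb : b ≠ 0) (hb' : b' ≠ 0) (h : DiffL x b x' b')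
    {a c : V3} (ha : OnL x b a) (ha' : OnL x' b' a) (hc : OnL x b c) (hc' : OnL x' b' c) : a = c := by
  by_contra hac
  apply h
  have hw : c - a ≠ 0 := fun h => hac (sub_eq_zero.1 h).symm
  have key : ∀ (x b : V3), b ≠ 0 → OnL x b a → OnL x b c → ∀ z, OnL x b z ↔ ∃ t : ℝ, z = a + t • (c - a) := by
    intro x b hb ha hc z
    obtain ⟨s, hs⟩ := (OnL_iff hb).1 ha
    obtain ⟨r, hr⟩ := (OnL_iff hb).1 hc
    have hsr : r - s ≠ 0 := by
      intro h0
      apply hac
      rw [hs, hr, sub_eq_zero.1 h0]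
    have hd : c - a = (r - s) • b := by
      rw [hs, hr, sub_smul]; abel
    rw [OnL_iff hb]
    constructor
    · rintro ⟨t, rfl⟩
      refine ⟨(t - s) / (r - s), ?_⟩
      rw [hd, smul_smul, div_mul_cancel₀ _ hsr, hs, sub_smul]
      abel
    · rintro ⟨t, rfl⟩
      refine ⟨s + t * (r - s), ?_⟩
      rw [hd, smul_smul, add_smul, hs]
      abel
  intro z
  rw [key x b hb ha hc z, key x' b' hb' ha' hc' z]

/-- points of a line contained in a plane -/
theorem LinP_OnP {x b n a : V3} {d : ℝ} (hb : b ≠ 0) (h : LinP x b n d) (ha : OnL x b a) :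
    OnP n d a := by
  obtain ⟨t, rfl⟩ := (OnL_iff hb).1 ha
  unfold OnP
  rw [dotProduct_add, dotProduct_smul, h.1, h.2]
  simp

/-- a line with two different points in the plane is in the plane -/
theorem LinP_of_two {x b n a c : V3} {d : ℝ} (hb : b ≠ 0) (hac : a ≠ c) (ha : OnL x b a)
    (hc : OnL x b c) (ha' : OnP n d a) (hc' : OnP n d c) : LinP x b n d := by
  obtain ⟨s, hs⟩ := (OnL_iff hb).1 ha
  obtain ⟨r, hr⟩ := (OnL_iff hb).1 hc
  unfold OnP at ha' hc'
  rw [hs, dotProduct_add, dotProduct_smul, smul_eq_mul] at ha'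
  rw [hr, dotProduct_add, dotProduct_smul, smul_eq_mul] at hc'
  have hsr : s - r ≠ 0 := by
    intro h0
    apply hac
    rw [hs, hr, sub_eq_zero.1 h0]
  have h1 : (s - r) * (n ⬝ᵥ b) = 0 := by linear_combination ha' - hc'
  have h2 : n ⬝ᵥ b = 0 := (mul_eq_zero.1 h1).resolve_left hsr
  exact ⟨by rw [h2] at ha'; linarith, h2⟩

/-- isometries preserve distances -/
theorem act_dist {g : Iso} (hg : Orth g) (a b : V3) :
    ∑ i, (act g a i - act g b i) ^ 2 = ∑ i, (a i - b i) ^ 2 := by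
  have h1 : act g a - act g b = g.1.mulVec (a - b) := by
    unfold act
    rw [Matrix.mulVec_sub]
    abel
  have h2 : ∀ y : V3, ∑ i, (y i) ^ 2 = y ⬝ᵥ y := fun y => by
    unfold dotProduct
    exact Finset.sum_congr rfl fun i _ => sq _
  have h3 : ∑ i, (act g a i - act g b i) ^ 2 = ∑ i, ((act g a - act g b) i) ^ 2 := rfl
  have h4 : ∑ i, (a i - b i) ^ 2 = ∑ i, ((a - b) i) ^ 2 := rfl
  rw [h3, h4, h2, h2, h1, Matrix.dotProduct_mulVec, Matrix.vecMul_mulVec,
    show g.1ᵀ * g.1 = 1 from hg, Matrix.vecMul_one]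

theorem refl_of_OnP {n a : V3} {d : ℝ} (h : OnP n d a) : refl n d a = a := by
  unfold refl
  unfold OnP at h
  rw [h]
  simp

theorem act_prt (g : Iso) (n : V3) (d : ℝ) (hn : n ≠ 0) (y : V3) :
    act (prt g n d) y = act g (refl n d y) := by
  unfold act prt refl
  simp only
  have h1 : (1 - (2 / (n ⬝ᵥ n)) • Matrix.vecMulVec n n).mulVec y =
      y - (2 * (n ⬝ᵥ y) / (n ⬝ᵥ n)) • n := by
    rw [Matrix.sub_mulVec, Matrix.one_mulVec, Matrix.smul_mulVec, Matrix.vecMulVec_mulVec]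
    funext i
    simp
    ring
  rw [← Matrix.mulVec_mulVec, h1, ← add_assoc, ← Matrix.mulVec_add]
  congr 2
  have h2 : (2 * (n ⬝ᵥ y - d) / (n ⬝ᵥ n)) = (2 * (n ⬝ᵥ y) / (n ⬝ᵥ n)) - (2 * d / (n ⬝ᵥ n)) := by
    ring
  rw [h2, sub_smul]
  abel

theorem refl_mat_orth {n : V3} (hn : n ≠ 0) :
    (1 - (2 / (n ⬝ᵥ n)) • Matrix.vecMulVec n n)ᵀ * (1 - (2 / (n ⬝ᵥ n)) • Matrix.vecMulVec n n) = 1 := by
  have hnn : n ⬝ᵥ n ≠ 0 := fun hc => hn (b_self hc)
  have h1 : Matrix.vecMulVec n n * Matrix.vecMulVec n n = (n ⬝ᵥ n) • Matrix.vecMulVec n n := by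
    rw [Matrix.vecMulVec_mul_vecMulVec]
    ext i j
    simp [Matrix.vecMulVec_apply]
    ring
  have h2 : (Matrix.vecMulVec n n)ᵀ = Matrix.vecMulVec n n := Matrix.transpose_vecMulVec n n
  rw [Matrix.transpose_sub, Matrix.transpose_one, Matrix.transpose_smul, h2, Matrix.mul_sub,
    Matrix.mul_one, Matrix.sub_mul, Matrix.one_mul, Matrix.smul_mul, Matrix.mul_smul, h1, smul_smul,
    smul_smul]
  have h3 : 2 / (n ⬝ᵥ n) * (2 / (n ⬝ᵥ n)) * (n ⬝ᵥ n) = 2 / (n ⬝ᵥ n) + 2 / (n ⬝ᵥ n) := by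
    field_simp
    ring
  rw [h3, add_smul]
  abel

theorem orth_prt {g : Iso} (hg : Orth g) (n : V3) (d : ℝ) (hn : n ≠ 0) : Orth (prt g n d) := by
  unfold Orth prt
  simp only
  rw [Matrix.transpose_mul, Matrix.mul_assoc, ← Matrix.mul_assoc g.1ᵀ, show g.1ᵀ * g.1 = 1 from hg,
    Matrix.one_mul]
  exact refl_mat_orth hn

theorem refl_refl {n : V3} (hn : n ≠ 0) (d : ℝ) (y : V3) : refl n d (refl n d y) = y := by
  have hnn : n ⬝ᵥ n ≠ 0 := fun hc => hn (b_self hc)
  unfold refl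
  rw [dotProduct_sub, dotProduct_smul, smul_eq_mul, sub_sub, ← add_smul]
  have h1 : 2 * (n ⬝ᵥ y - d) / (n ⬝ᵥ n) +
      2 * (n ⬝ᵥ y - 2 * (n ⬝ᵥ y - d) / (n ⬝ᵥ n) * (n ⬝ᵥ n) - d) / (n ⬝ᵥ n) = 0 := by
    field_simp
    ring
  rw [h1, zero_smul, sub_zero]

theorem iso_ext {g h : Iso} (he : ∀ y, act g y = act h y) : g = h := by
  have h0 := he 0
  unfold act at h0
  rw [Matrix.mulVec_zero, Matrix.mulVec_zero, zero_add, zero_add] at h0
  refine Prod.ext ?_ h0
  ext i j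
  have h1 := congrFun (he (Pi.single j 1)) i
  unfold act at h1
  rw [Matrix.mulVec_single_one, Matrix.mulVec_single_one, h0] at h1
  simpa using h1

theorem prt_prt (g : Iso) (n : V3) (d : ℝ) (hn : n ≠ 0) : prt (prt g n d) n d = g := by
  apply iso_ext
  intro y
  rw [act_prt _ n d hn, act_prt _ n d hn, refl_refl hn]

/-- the partner depends only on the plane -/
theorem prt_congr (g : Iso) {n n' : V3} {d d' : ℝ} (hn : n ≠ 0) (hn' : n' ≠ 0)
    (h : ∀ a, OnP n d a ↔ OnP n' d' a) : prt g n d = prt g n' d' := by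
  have hnn : n ⬝ᵥ n ≠ 0 := fun hc => hn (b_self hc)
  have hnn' : n' ⬝ᵥ n' ≠ 0 := fun hc => hn' (b_self hc)
  -- a point of the plane
  set p : V3 := (d / (n ⬝ᵥ n)) • n with hp
  have hpP : n ⬝ᵥ p = d := by
    rw [hp, dotProduct_smul, smul_eq_mul, div_mul_cancel₀ _ hnn]
  have hpP' : n' ⬝ᵥ p = d' := (h p).1 hpP
  -- `n'` is orthogonal to `n^⊥`
  have horth : ∀ w : V3, n ⬝ᵥ w = 0 → n' ⬝ᵥ w = 0 := by
    intro w hw
    have h1 : n ⬝ᵥ (p + w) = d := by rw [dotProduct_add, hpP, hw, add_zero]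
    have h2 : n' ⬝ᵥ (p + w) = d' := (h _).1 h1
    rw [dotProduct_add, hpP'] at h2
    linarith
  set t : ℝ := (n' ⬝ᵥ n) / (n ⬝ᵥ n) with ht
  have hpar : n' = t • n := by
    have h1 : n ⬝ᵥ (n' - t • n) = 0 := by
      rw [dotProduct_sub, dotProduct_smul, smul_eq_mul, ht, div_mul_cancel₀ _ hnn,
        dotProduct_comm n n', sub_self]
    have h2 := horth _ h1
    have h3 : (n' - t • n) ⬝ᵥ (n' - t • n) = 0 := by
      rw [sub_dotProduct, smul_dotProduct, h2, h1]
      simp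
    exact sub_eq_zero.1 (b_self h3)
  have ht0 : t ≠ 0 := by
    intro h0
    apply hn'
    rw [hpar, h0, zero_smul]
  have hd' : d' = t * d := by
    rw [← hpP', hpar, smul_dotProduct, hpP, smul_eq_mul]
  apply iso_ext
  intro y
  rw [act_prt _ n d hn, act_prt _ n' d' hn']
  congr 1
  unfold refl
  rw [hpar, hd', smul_dotProduct, smul_dotProduct, dotProduct_smul, smul_smul]
  congr 2
  simp only [smul_eq_mul]
  field_simp

/-- `M` of the partner agrees on the plane -/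
theorem M_prt_plane (g : Iso) {n : V3} {d : ℝ} (hn : n ≠ 0) (X Y : Finset V3) {a : V3}
    (ha : OnP n d a) : a ∈ M (prt g n d) X Y ↔ a ∈ M g X Y := by
  classical
  unfold M
  rw [Finset.mem_filter, Finset.mem_filter, act_prt _ n d hn, refl_of_OnP ha]

/-- if three non collinear points are in both planes, the planes are equal -/
theorem plane_eq_of_three {n n' : V3} {d d' : ℝ} (hn : n ≠ 0) (hn' : n' ≠ 0) {a b c : V3}
    (habc : crossProduct (b - a) (c - a) ≠ 0) (h1 : OnP n d a) (h2 : OnP n d b) (h3 : OnP n d c)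
    (h1' : OnP n' d' a) (h2' : OnP n' d' b) (h3' : OnP n' d' c) : ∀ y, OnP n d y ↔ OnP n' d' y := by
  have key : ∀ (m : V3) (e : ℝ), OnP m e a → OnP m e b → OnP m e c →
      ∃ t : ℝ, m = t • crossProduct (b - a) (c - a) := by
    intro m e k1 k2 k3
    apply b_par ?_ habc
    unfold OnP at k1 k2 k3
    have l1 : m ⬝ᵥ (b - a) = 0 := by rw [dotProduct_sub, k1, k2, sub_self]
    have l2 : m ⬝ᵥ (c - a) = 0 := by rw [dotProduct_sub, k1, k3, sub_self]
    set u := b - a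
    set w := c - a
    rw [bdp] at l1 l2
    simp only [bcr]
    apply b_ext <;> simp only [Matrix.cons_val, Pi.zero_apply]
    · linear_combination u 0 * l2 - w 0 * l1
    · linear_combination u 1 * l2 - w 1 * l1
    · linear_combination u 2 * l2 - w 2 * l1
  obtain ⟨t, ht⟩ := key n d h1 h2 h3
  obtain ⟨s, hs⟩ := key n' d' h1' h2' h3'
  set q := crossProduct (b - a) (c - a)
  have ht0 : t ≠ 0 := by intro h; apply hn; rw [ht, h, zero_smul]
  have hs0 : s ≠ 0 := by intro h; apply hn'; rw [hs, h, zero_smul]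
  intro y
  unfold OnP at *
  rw [ht, smul_dotProduct, smul_eq_mul] at h1 ⊢
  rw [hs, smul_dotProduct, smul_eq_mul] at h1' ⊢
  rw [← h1, ← h1']
  constructor
  · intro h
    rw [mul_left_cancel₀ ht0 h]
  · intro h
    rw [mul_left_cancel₀ hs0 h]

end Vale.Agent.P054.R
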