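import Mathlib.LinearAlgebra.CrossProduct
import Mathlib.Analysis.SpecialFunctions.Pow.Real
import Mathlib.Data.Matrix.Mul
import Mathlib.Tactic

/-! P054, block R: definitions and black box statements.

`R(X,Y) = ∑ ρ(M_g)³` over all isometries `g` of `ℝ³` (proper and improper) with `ρ(M_g) ≥ K1`,
`M_g = {x ∈ X : g x ∈ Y}`, `ρ(M) = ` least number of points of `M` off a line. -/

set_option linter.all false
set_option autoImplicit false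

namespace Vale.Agent.P054.R

open Finset Matrix

abbrev V3 := Fin 3 → ℝ

/-- `g = (Q, v)` -/
abbrev Iso := Matrix (Fin 3) (Fin 3) ℝ × V3

/-- `g` is an isometry -/
def Orth (g : Iso) : Prop := g.1ᵀ * g.1 = 1

def act (g : Iso) (x : V3) : V3 := g.1.mulVec x + g.2

open scoped Classical in
/-- the points of `X` moved into `Y` -/
noncomputable def M (g : Iso) (X Y : Finset V3) : Finset V3 := X.filter (fun x => act g x ∈ Y)

/-- `a` is on the line through `x` with direction `b` -/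
def OnL (x b a : V3) : Prop := crossProduct (a - x) b = 0

open scoped Classical in
/-- number of points of `S` off the line `(x, b)` -/
noncomputable def off (S : Finset V3) (x b : V3) : ℕ := (S.filter (fun a => ¬ OnL x b a)).card

open scoped Classical in
/-- number of points of `S` on the line `(x, b)` -/
noncomputable def on (S : Finset V3) (x b : V3) : ℕ := (S.filter (fun a => OnL x b a)).card

/-- least number of points of `S` off a line -/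
noncomputable def rho (S : Finset V3) : ℕ := sInf {k | ∃ x b : V3, b ≠ 0 ∧ off S x b = k}

/-- `a` is on the plane `n ⬝ y = d` -/
def OnP (n : V3) (d : ℝ) (a : V3) : Prop := n ⬝ᵥ a = d

/-- reflection in the plane `n ⬝ y = d` -/
noncomputable def refl (n : V3) (d : ℝ) (a : V3) : V3 := a - (2 * (n ⬝ᵥ a - d) / (n ⬝ᵥ n)) • n

/-- partner of `g`: first the reflection in the plane, then `g` -/
noncomputable def prt (g : Iso) (n : V3) (d : ℝ) : Iso :=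
  (g.1 * (1 - (2 / (n ⬝ᵥ n)) • Matrix.vecMulVec n n), g.1.mulVec ((2 * d / (n ⬝ᵥ n)) • n) + g.2)

/-- the line `(x, b)` is contained in the plane `(n, d)` -/
def LinP (x b n : V3) (d : ℝ) : Prop := n ⬝ᵥ x = d ∧ n ⬝ᵥ b = 0

/-- the two lines are different -/
def DiffL (x b x' b' : V3) : Prop := ¬ (∀ a, OnL x b a ↔ OnL x' b' a)

/-- the functional -/
noncomputable def Rf (K1 : ℕ) (G : Finset Iso) (X Y : Finset V3) : ℝ :=
  ∑ g ∈ G, (if K1 ≤ rho (M g X Y) then ((rho (M g X Y) : ℕ) : ℝ) ^ 3 else 0)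

/-! ### Black boxes -/

/-- spanning motions (from block J) -/
def SpanStmt : Prop := ∀ (X Y : Finset V3) (G : Finset Iso), (∀ g ∈ G, Orth g) →
  (∀ g ∈ G, 1 ≤ rho (M g X Y) ∧ ∀ (n : V3) (d : ℝ), n ≠ 0 → ∃ a ∈ M g X Y, ¬ OnP n d a) →
  (G.card : ℝ) ≤ 10 * ((X.card : ℝ) * Y.card) ^ 2

/-- doubly planar motions of bounded richness (from block PL) -/
def PlanarStmt : Prop := ∀ ε : ℝ, 0 < ε → ∃ K1 : ℕ, ∀ K2 : ℕ, ∃ C : ℝ, 0 < C ∧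
  ∀ (X Y : Finset V3) (G : Finset Iso), (∀ g ∈ G, Orth g) →
  (∀ g ∈ G, K1 ≤ rho (M g X Y) ∧ ∃ (n : V3) (d : ℝ), n ≠ 0 ∧ (∀ a ∈ M g X Y, OnP n d a) ∧
    rho (M (prt g n d) X Y) ≤ K2) →
  (G.card : ℝ) ≤ C * ((X.card : ℝ) * Y.card) ^ (2 + ε)

/-- two rich lines, skew or coplanar with comparable partner (from L3, J, PL-BIP) -/
def TwoStmt : Prop := ∀ ε : ℝ, 0 < ε → ∀ K3 : ℕ, ∃ K2 : ℕ, ∃ C : ℝ, 0 < C ∧
  ∀ (X Y : Finset V3) (G : Finset Iso), (∀ g ∈ G, Orth g) →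
  ∀ (k : Iso → ℕ) (x1 b1 x2 b2 : Iso → V3),
  (∀ g ∈ G, K2 ≤ k g ∧ b1 g ≠ 0 ∧ b2 g ≠ 0 ∧ DiffL (x1 g) (b1 g) (x2 g) (b2 g) ∧
    k g ≤ on (M g X Y) (x1 g) (b1 g) ∧ k g ≤ on (M g X Y) (x2 g) (b2 g) ∧
    ∀ (n : V3) (d : ℝ), n ≠ 0 → LinP (x1 g) (b1 g) n d → LinP (x2 g) (b2 g) n d →
      rho (M (prt g n d) X Y) ≤ K3 * k g) →
  ∑ g ∈ G, ((k g : ℕ) : ℝ) ^ 3 ≤ C * ((X.card : ℝ) * Y.card) ^ (2 + ε)

/-- absorption (Szemeredi-Trotter): planes with two rich lines -/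
def AbsorbStmt : Prop := ∃ C : ℝ, 0 < C ∧ ∀ (S : Finset V3) (K2 K3 : ℕ), 16 ≤ K2 → 1 ≤ K3 →
  ∀ (ι : Type) (I : Finset ι) (n : ι → V3) (d : ι → ℝ) (k : ι → ℕ),
  (∀ i ∈ I, n i ≠ 0) →
  (∀ i ∈ I, ∀ j ∈ I, i ≠ j → ¬ (∀ a, OnP (n i) (d i) a ↔ OnP (n j) (d j) a)) →
  (∀ i ∈ I, K2 ≤ k i ∧ K3 * k i ≤ rho S ∧ ∃ x1 b1 x2 b2 : V3, b1 ≠ 0 ∧ b2 ≠ 0 ∧
    DiffL x1 b1 x2 b2 ∧ LinP x1 b1 (n i) (d i) ∧ LinP x2 b2 (n i) (d i) ∧
    k i ≤ on S x1 b1 ∧ k i ≤ on S x2 b2) →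
  ∑ i ∈ I, ((k i : ℕ) : ℝ) ^ 3 ≤ C * (rho S : ℝ) ^ 3 * (1 / K2 + 1 / K3)

/-- output -/
def RStmt : Prop := ∀ ε : ℝ, 0 < ε → ∃ K1 : ℕ, ∃ C : ℝ, 0 < C ∧
  ∀ (X Y : Finset V3) (G : Finset Iso), (∀ g ∈ G, Orth g) →
  Rf K1 G X Y ≤ C * ((X.card : ℝ) * Y.card) ^ (2 + ε)

end Vale.Agent.P054.R
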