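import Vale.Agent.P054.R.Basic

/-! P054, block R, leaf SECTIONS: `∑ ρ(S ∩ Π)³ ≤ 4 ρ(S)³` over different planes.
Proof. `l0` line with `off S l0 = rho S`, `N = S \ l0`, `|N| = ρ`. Planes containing `l0`: the sets
`N ∩ Π` are disjoint and `ρ(S ∩ Π) ≤ |N ∩ Π|`, so the sum is `≤ ρ³`. Other planes: at most one point
of `S ∩ Π` is on `l0`, `N_Π = N ∩ Π`, `r = ρ(S ∩ Π)`: every line leaves `≥ r - 1` points of `N_Π`,
so `|N_Π| ≥ r + 1` and the set `T_Π` of triples `(x, y, z) ∈ N_Π³` with
`(y - x) ×ᵥ (z - x) ≠ 0` has at least `(r + 1) r (r - 1) ≥ (3/4) r³` elements; the `T_Π ⊆ N³` are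
disjoint (`plane_eq_of_three`). -/

set_option linter.all false
set_option autoImplicit false

namespace Vale.Agent.P054.R

open Finset Matrix

lemma sec_cross_swap (a b : V3) : crossProduct a b = 0 ↔ crossProduct b a = 0 := by
  rw [← cross_anticomm a b, neg_eq_zero]

lemma sec_cross_self (a : V3) : crossProduct a a = 0 := cross_self a

lemma sec_OnL_self (x b : V3) : OnL x b x := by
  unfold OnL
  rw [sub_self]
  simp

lemma sec_OnL_two (x y : V3) : OnL x (y - x) y := by
  unfold OnL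
  exact cross_self _

lemma sec_arith (c r : ℕ) (hr : 2 ≤ r) (hc : r + 1 ≤ c) :
    3 * r ^ 3 ≤ 4 * (c * ((c - 1) * (r - 1))) := by
  obtain ⟨s, rfl⟩ : ∃ s, r = s + 2 := ⟨r - 2, by omega⟩
  obtain ⟨t, rfl⟩ : ∃ t, c = t + (s + 3) := ⟨c - (s + 3), by omega⟩
  have h1 : t + (s + 3) - 1 = t + (s + 2) := by omega
  have h2 : s + 2 - 1 = s + 1 := by omega
  rw [h1, h2]
  nlinarith [Nat.zero_le t, Nat.zero_le s, mul_nonneg (Nat.zero_le t) (Nat.zero_le s),
    Nat.zero_le (s * s * s), Nat.zero_le (t * t), Nat.zero_le (t * t * s), Nat.zero_le (t * s * s),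
    Nat.zero_le (s * s)]

open scoped Classical in
/-- the number of non collinear triples of a set which has at least `r - 1` points off every line -/
lemma sec_triples (N : Finset V3) (r : ℕ) (hr : 2 ≤ r)
    (h : ∀ x b : V3, b ≠ 0 → r ≤ (N.filter (fun a => ¬ OnL x b a)).card + 1) :
    3 * r ^ 3 ≤ 4 * ((N ×ˢ N ×ˢ N).filter
      (fun t : V3 × V3 × V3 => crossProduct (t.2.1 - t.1) (t.2.2 - t.1) ≠ 0)).card := by
  have hne1 : ∃ b : V3, b ≠ 0 := ⟨fun _ => 1, fun h0 => one_ne_zero (congrFun h0 0)⟩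
  obtain ⟨b1, hb1⟩ := hne1
  -- a first point
  have hx : ∃ x, x ∈ N := by
    have h1 := h 0 b1 hb1
    have h2 : 0 < (N.filter (fun a => ¬ OnL 0 b1 a)).card := by omega
    obtain ⟨x, hx⟩ := Finset.card_pos.1 h2
    exact ⟨x, (Finset.mem_filter.1 hx).1⟩
  obtain ⟨x, hx⟩ := hx
  have hy : ∃ y, y ∈ N ∧ y ≠ x := by
    have h1 := h x b1 hb1
    have h2 : 0 < (N.filter (fun a => ¬ OnL x b1 a)).card := by omega
    obtain ⟨y, hy⟩ := Finset.card_pos.1 h2
    obtain ⟨hy1, hy2⟩ := Finset.mem_filter.1 hy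
    exact ⟨y, hy1, fun hyx => hy2 (hyx ▸ sec_OnL_self x b1)⟩
  obtain ⟨y, hy, hyx⟩ := hy
  have hcard : r + 1 ≤ N.card := by
    have h1 := h x (y - x) (sub_ne_zero.2 hyx)
    have h2 : (N.filter (fun a => ¬ OnL x (y - x) a)) ⊆ (N.erase x).erase y := by
      intro a ha
      obtain ⟨ha1, ha2⟩ := Finset.mem_filter.1 ha
      refine Finset.mem_erase.2 ⟨fun hay => ha2 (hay ▸ sec_OnL_two x y), Finset.mem_erase.2
        ⟨fun hax => ha2 (hax ▸ sec_OnL_self x (y - x)), ha1⟩⟩
    have h3 := Finset.card_le_card h2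
    rw [Finset.card_erase_of_mem (Finset.mem_erase.2 ⟨hyx, hy⟩), Finset.card_erase_of_mem hx] at h3
    have h4 : 0 < N.card := Finset.card_pos.2 ⟨x, hx⟩
    omega
  refine (sec_arith N.card r hr hcard).trans ?_
  refine Nat.mul_le_mul_left 4 ?_
  rw [Finset.card_filter, Finset.sum_product]
  calc N.card * ((N.card - 1) * (r - 1))
      = ∑ x ∈ N, ((N.card - 1) * (r - 1)) := by rw [Finset.sum_const, smul_eq_mul]
    _ ≤ _ := by
      refine Finset.sum_le_sum fun x hx => ?_
      rw [Finset.sum_product]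
      calc (N.card - 1) * (r - 1) = ∑ y ∈ N.erase x, (r - 1) := by
            rw [Finset.sum_const, smul_eq_mul, Finset.card_erase_of_mem hx]
        _ ≤ ∑ y ∈ N.erase x, ∑ z ∈ N, (if crossProduct (y - x) (z - x) ≠ 0 then 1 else 0) := by
            refine Finset.sum_le_sum fun y hy => ?_
            rw [← Finset.card_filter]
            have h1 := h x (y - x) (sub_ne_zero.2 (Finset.mem_erase.1 hy).1)
            have h2 : (N.filter (fun a => ¬ OnL x (y - x) a)) ⊆
                N.filter (fun z => crossProduct (y - x) (z - x) ≠ 0) := by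
              intro a ha
              obtain ⟨ha1, ha2⟩ := Finset.mem_filter.1 ha
              refine Finset.mem_filter.2 ⟨ha1, fun h3 => ha2 ?_⟩
              exact (sec_cross_swap _ _).1 h3
            have h3 := Finset.card_le_card h2
            omega
        _ ≤ _ := Finset.sum_le_sum_of_subset (Finset.erase_subset x N)

open scoped Classical in
theorem sections (S : Finset V3) (ι : Type) (I : Finset ι) (n : ι → V3) (d : ι → ℝ)
    (hn : ∀ i ∈ I, n i ≠ 0)
    (hne : ∀ i ∈ I, ∀ j ∈ I, i ≠ j → ¬ (∀ a, OnP (n i) (d i) a ↔ OnP (n j) (d j) a))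
    (h2 : ∀ i ∈ I, 2 ≤ rho (S.filter (OnP (n i) (d i)))) :
    ∑ i ∈ I, (rho (S.filter (OnP (n i) (d i)))) ^ 3 ≤ 4 * rho S ^ 3 := by
  obtain ⟨x0, b0, hb0, hoff⟩ := rho_spec S
  obtain ⟨N, hN⟩ : ∃ N : Finset V3, N = S.filter (fun a => ¬ OnL x0 b0 a) := ⟨_, rfl⟩
  have hNc : N.card = rho S := by
    rw [← hoff, hN]
    rfl
  have hNS : N ⊆ S := by
    rw [hN]
    exact Finset.filter_subset _ _
  rw [← hNc]
  obtain ⟨Ni, hNi⟩ : ∃ Ni : ι → Finset V3, ∀ i, Ni i = N.filter (OnP (n i) (d i)) := ⟨_, fun _ => rfl⟩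
  rw [← Finset.sum_filter_add_sum_filter_not I (fun i => LinP x0 b0 (n i) (d i))]
  -- planes containing the line
  have hA : ∑ i ∈ I.filter (fun i => LinP x0 b0 (n i) (d i)), (rho (S.filter (OnP (n i) (d i)))) ^ 3 ≤
      N.card ^ 3 := by
    have h3 : ∀ i ∈ I.filter (fun i => LinP x0 b0 (n i) (d i)),
        rho (S.filter (OnP (n i) (d i))) ≤ (Ni i).card := by
      intro i hi
      refine (rho_le_off _ x0 b0 hb0).trans (Finset.card_le_card ?_)
      intro a ha
      obtain ⟨ha1, ha2⟩ := Finset.mem_filter.1 ha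
      obtain ⟨ha3, ha4⟩ := Finset.mem_filter.1 ha1
      rw [hNi, Finset.mem_filter, hN, Finset.mem_filter]
      exact ⟨⟨ha3, ha2⟩, ha4⟩
    have h4 : ∑ i ∈ I.filter (fun i => LinP x0 b0 (n i) (d i)), (Ni i).card ≤ N.card := by
      rw [← Finset.card_biUnion]
      · refine Finset.card_le_card (Finset.biUnion_subset.2 fun i _ => ?_)
        rw [hNi]
        exact Finset.filter_subset _ _
      · intro i hi j hj hij
        refine Finset.disjoint_left.2 ?_
        intro a hai haj
        obtain ⟨hi1, hi2⟩ := Finset.mem_filter.1 (Finset.mem_coe.1 hi)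
        obtain ⟨hj1, hj2⟩ := Finset.mem_filter.1 (Finset.mem_coe.1 hj)
        rw [hNi, Finset.mem_filter] at hai haj
        refine hne i hi1 j hj1 hij ?_
        have haN : ¬ OnL x0 b0 a := by
          have h5 := hai.1
          rw [hN, Finset.mem_filter] at h5
          exact h5.2
        refine plane_eq_of_three (a := x0) (b := x0 + b0) (c := a) (hn i hi1) (hn j hj1) ?_ hi2.1 ?_
          hai.2 hj2.1 ?_ haj.2
        · rw [add_sub_cancel_left]
          intro h5
          exact haN ((sec_cross_swap _ _).1 h5)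
        · unfold OnP
          rw [dotProduct_add, hi2.1, hi2.2, add_zero]
        · unfold OnP
          rw [dotProduct_add, hj2.1, hj2.2, add_zero]
    have h5 : ∀ i, (Ni i).card ≤ N.card := fun i => by
      rw [hNi]
      exact Finset.card_filter_le _ _
    calc ∑ i ∈ I.filter (fun i => LinP x0 b0 (n i) (d i)), (rho (S.filter (OnP (n i) (d i)))) ^ 3
        ≤ ∑ i ∈ I.filter (fun i => LinP x0 b0 (n i) (d i)), (Ni i).card * N.card ^ 2 := by
          refine Finset.sum_le_sum fun i hi => ?_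
          calc (rho (S.filter (OnP (n i) (d i)))) ^ 3 ≤ (Ni i).card ^ 3 :=
                Nat.pow_le_pow_left (h3 i hi) 3
            _ = (Ni i).card * (Ni i).card ^ 2 := by ring
            _ ≤ (Ni i).card * N.card ^ 2 := Nat.mul_le_mul_left _ (Nat.pow_le_pow_left (h5 i) 2)
      _ = (∑ i ∈ I.filter (fun i => LinP x0 b0 (n i) (d i)), (Ni i).card) * N.card ^ 2 := by
          rw [Finset.sum_mul]
      _ ≤ N.card * N.card ^ 2 := Nat.mul_le_mul_right _ h4
      _ = N.card ^ 3 := by ring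
  -- the other planes
  have hB : 3 * ∑ i ∈ I.filter (fun i => ¬ LinP x0 b0 (n i) (d i)),
      (rho (S.filter (OnP (n i) (d i)))) ^ 3 ≤ 4 * N.card ^ 3 := by
    obtain ⟨T, hT⟩ : ∃ T : ι → Finset (V3 × V3 × V3), ∀ i, T i = (Ni i ×ˢ Ni i ×ˢ Ni i).filter
      (fun t : V3 × V3 × V3 => crossProduct (t.2.1 - t.1) (t.2.2 - t.1) ≠ 0) := ⟨_, fun _ => rfl⟩
    have h3 : ∀ i ∈ I.filter (fun i => ¬ LinP x0 b0 (n i) (d i)),
        3 * (rho (S.filter (OnP (n i) (d i)))) ^ 3 ≤ 4 * (T i).card := by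
      intro i hi
      obtain ⟨hi1, hi2⟩ := Finset.mem_filter.1 hi
      rw [hT]
      refine sec_triples (Ni i) _ (h2 i hi1) ?_
      intro x b hb
      have h4 := rho_le_off (S.filter (OnP (n i) (d i))) x b hb
      have h5 : ((S.filter (OnP (n i) (d i))).filter (fun a => ¬ OnL x b a)) ⊆
          ((Ni i).filter (fun a => ¬ OnL x b a)) ∪
            ((S.filter (OnP (n i) (d i))).filter (fun a => OnL x0 b0 a)) := by
        intro a ha
        obtain ⟨ha1, ha2⟩ := Finset.mem_filter.1 ha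
        obtain ⟨ha3, ha4⟩ := Finset.mem_filter.1 ha1
        rw [Finset.mem_union]
        by_cases hl : OnL x0 b0 a
        · exact Or.inr (Finset.mem_filter.2 ⟨ha1, hl⟩)
        · left
          rw [Finset.mem_filter, hNi, Finset.mem_filter, hN, Finset.mem_filter]
          exact ⟨⟨⟨ha3, hl⟩, ha4⟩, ha2⟩
      have h6 : ((S.filter (OnP (n i) (d i))).filter (fun a => OnL x0 b0 a)).card ≤ 1 := by
        rw [Finset.card_le_one]
        intro a ha c hc
        by_contra hac
        obtain ⟨ha1, ha2⟩ := Finset.mem_filter.1 ha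
        obtain ⟨hc1, hc2⟩ := Finset.mem_filter.1 hc
        exact hi2 (LinP_of_two hb0 hac ha2 hc2 (Finset.mem_filter.1 ha1).2
          (Finset.mem_filter.1 hc1).2)
      have h7 := (Finset.card_le_card h5).trans (Finset.card_union_le _ _)
      have h8 : off (S.filter (OnP (n i) (d i))) x b =
        ((S.filter (OnP (n i) (d i))).filter (fun a => ¬ OnL x b a)).card := rfl
      rw [h8] at h4
      omega
    have h4 : ∑ i ∈ I.filter (fun i => ¬ LinP x0 b0 (n i) (d i)), (T i).card ≤ N.card ^ 3 := by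
      rw [← Finset.card_biUnion]
      · have h5 : (N ×ˢ N ×ˢ N).card = N.card ^ 3 := by
          rw [Finset.card_product, Finset.card_product]
          ring
        rw [← h5]
        refine Finset.card_le_card (Finset.biUnion_subset.2 fun i _ => ?_)
        rw [hT]
        refine (Finset.filter_subset _ _).trans ?_
        have h6 : Ni i ⊆ N := by
          rw [hNi]
          exact Finset.filter_subset _ _
        exact Finset.product_subset_product h6 (Finset.product_subset_product h6 h6)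
      · intro i hi j hj hij
        refine Finset.disjoint_left.2 ?_
        rintro ⟨a, b, c⟩ hai haj
        obtain ⟨hi1, hi2⟩ := Finset.mem_filter.1 (Finset.mem_coe.1 hi)
        obtain ⟨hj1, hj2⟩ := Finset.mem_filter.1 (Finset.mem_coe.1 hj)
        rw [hT, Finset.mem_filter, Finset.mem_product, Finset.mem_product] at hai haj
        obtain ⟨⟨ha, hb, hc⟩, hcr⟩ := hai
        obtain ⟨⟨ha', hb', hc'⟩, _⟩ := haj
        simp only [hNi, Finset.mem_filter] at ha hb hc ha' hb' hc'
        exact hne i hi1 j hj1 hij (plane_eq_of_three (hn i hi1) (hn j hj1) hcr ha.2 hb.2 hc.2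
          ha'.2 hb'.2 hc'.2)
    calc 3 * ∑ i ∈ I.filter (fun i => ¬ LinP x0 b0 (n i) (d i)),
          (rho (S.filter (OnP (n i) (d i)))) ^ 3
        = ∑ i ∈ I.filter (fun i => ¬ LinP x0 b0 (n i) (d i)),
          3 * (rho (S.filter (OnP (n i) (d i)))) ^ 3 := by rw [Finset.mul_sum]
      _ ≤ ∑ i ∈ I.filter (fun i => ¬ LinP x0 b0 (n i) (d i)), 4 * (T i).card :=
          Finset.sum_le_sum h3
      _ = 4 * ∑ i ∈ I.filter (fun i => ¬ LinP x0 b0 (n i) (d i)), (T i).card := by
          rw [Finset.mul_sum]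
      _ ≤ 4 * N.card ^ 3 := Nat.mul_le_mul_left 4 h4
  omega

end Vale.Agent.P054.R
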