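import Vale.Agent.P054.R.Final
import Vale.Agent.P054.Y.PL.Main
import Vale.Agent.P054.Two.Main
import Vale.Agent.P054.Two.Bip

/-! P054: Theorem R, unconditional. -/

set_option linter.all false

namespace Vale.Agent.P054.R

theorem r_stmt : RStmt := rstmt Vale.Agent.P054.PL.planar (Vale.Agent.P054.Two.two Vale.Agent.P054.Two.bip)

end Vale.Agent.P054.R
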