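import Vale.Agent.P054.R.FinG
import Vale.Agent.P054.Y.Sections

/-! P054, block R: the functional with weight `ρ ^ (3 + η)` and the absorption inequality. -/

set_option linter.all false
set_option autoImplicit false

namespace Vale.Agent.P054.R

open Finset Matrix

/-- truncated weight -/
noncomputable def wt (η : ℝ) (K1 : ℕ) (S : Finset V3) : ℝ :=
  if K1 ≤ rho S then ((rho S : ℕ) : ℝ) ^ (3 + η) else 0

theorem wt_nonneg (η : ℝ) (K1 : ℕ) (S : Finset V3) : 0 ≤ wt η K1 S := by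
  unfold wt
  split_ifs
  · positivity
  · exact le_rfl

noncomputable def Re (η : ℝ) (K1 : ℕ) (G : Finset Iso) (X Y : Finset V3) : ℝ :=
  ∑ g ∈ G, wt η K1 (M g X Y)

theorem Re_nonneg (η : ℝ) (K1 : ℕ) (G : Finset Iso) (X Y : Finset V3) : 0 ≤ Re η K1 G X Y :=
  Finset.sum_nonneg (fun g _ => wt_nonneg _ _ _)

/-- all isometries with non collinear match -/
noncomputable def GF (X Y : Finset V3) : Finset Iso := (finite_iso X Y).toFinset

theorem mem_GF {X Y : Finset V3} {g : Iso} : g ∈ GF X Y ↔ Orth g ∧ 1 ≤ rho (M g X Y) := by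
  unfold GF
  rw [Set.Finite.mem_toFinset]
  rfl

theorem Re_le_full {η : ℝ} {K1 : ℕ} (hK : 1 ≤ K1) (X Y : Finset V3) (G : Finset Iso)
    (hG : ∀ g ∈ G, Orth g) : Re η K1 G X Y ≤ Re η K1 (GF X Y) X Y := by
  classical
  unfold Re
  have h1 : ∑ g ∈ G, wt η K1 (M g X Y) = ∑ g ∈ G.filter (fun g => K1 ≤ rho (M g X Y)), wt η K1 (M g X Y) := by
    rw [Finset.sum_filter]
    apply Finset.sum_congr rfl
    intro g hg
    split_ifs with h
    · rfl
    · unfold wt; rw [if_neg h]
  rw [h1]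
  apply Finset.sum_le_sum_of_subset_of_nonneg
  · intro g hg
    rw [Finset.mem_filter] at hg
    exact mem_GF.2 ⟨hG g hg.1, hK.trans hg.2⟩
  · intro g _ _
    exact wt_nonneg _ _ _

open scoped Classical in
theorem off_eq (S : Finset V3) (x b : V3) :
    off S x b = (S.filter (Vale.Agent.P054.Y.Sec.Off x b)).card := by
  unfold off
  exact congrArg Finset.card (Finset.filter_congr (fun a _ => Iff.rfl))

open scoped Classical in
theorem absorb_sum {η A : ℝ} (hη : 0 ≤ η) (hA : 0 < A) (K1 : ℕ) (hK1 : 1 ≤ K1) (X Y : Finset V3)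
    (G : Finset Iso) (n : Iso → V3) (d : Iso → ℝ) (k : Iso → ℕ)
    (hG : ∀ g ∈ G, Orth g ∧ n g ≠ 0 ∧ 2 ≤ k g ∧ A * (k g : ℝ) ≤ rho (M (prt g (n g) (d g)) X Y) ∧
      K1 ≤ rho (M (prt g (n g) (d g)) X Y) ∧ ∀ x b : V3, b ≠ 0 →
        k g ≤ (((M g X Y).filter (fun a => n g ⬝ᵥ a = d g)).filter (Vale.Agent.P054.Y.Sec.Off x b)).card) :
    ∑ g ∈ G, ((k g : ℕ) : ℝ) ^ (3 + η) ≤ 5 * A ^ (-η) * Re η K1 (GF X Y) X Y := by
  set f : Iso → Iso := fun g => prt g (n g) (d g) with hf
  have h1 : ∑ g ∈ G, ((k g : ℕ) : ℝ) ^ (3 + η)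
      = ∑ h ∈ G.image f, ∑ g ∈ G.filter (fun g => f g = h), ((k g : ℕ) : ℝ) ^ (3 + η) :=
    (Finset.sum_fiberwise_of_maps_to (fun g hg => Finset.mem_image_of_mem f hg) _).symm
  rw [h1]
  have h2 : ∀ h ∈ G.image f, ∑ g ∈ G.filter (fun g => f g = h), ((k g : ℕ) : ℝ) ^ (3 + η)
      ≤ 5 * A ^ (-η) * wt η K1 (M h X Y) := by
    intro h hh
    obtain ⟨g0, hg0, rfl⟩ := Finset.mem_image.1 hh
    have hK : K1 ≤ rho (M (f g0) X Y) := (hG g0 hg0).2.2.2.2.1
    have hw : wt η K1 (M (f g0) X Y) = ((rho (M (f g0) X Y) : ℕ) : ℝ) ^ (3 + η) := by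
      unfold wt; rw [if_pos hK]
    rw [hw]
    obtain ⟨x0, b0, hb0, hoff⟩ := rho_spec (M (f g0) X Y)
    apply Vale.Agent.P054.Y.Sec.gain _ _ _ _ hη hA
    · intro g hg
      rw [Finset.mem_filter] at hg
      rw [← hg.2]
      exact (hG g hg.1).2.2.2.1
    · apply Vale.Agent.P054.Y.Sec.sections (M (f g0) X Y) x0 b0 hb0 (rho (M (f g0) X Y))
        (le_of_eq (by rw [← hoff, off_eq])) _ n d k
      · intro g hg
        rw [Finset.mem_filter] at hg
        exact (hG g hg.1).2.1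
      · intro g hg g' hg' heq
        rw [Finset.mem_filter] at hg hg'
        have e1 : prt (f g0) (n g) (d g) = g := by
          rw [← hg.2]
          exact prt_prt g (n g) (d g) (hG g hg.1).2.1
        have e2 : prt (f g0) (n g') (d g') = g' := by
          rw [← hg'.2]
          exact prt_prt g' (n g') (d g') (hG g' hg'.1).2.1
        rw [← e1, ← e2]
        apply prt_congr _ (hG g hg.1).2.1 (hG g' hg'.1).2.1
        intro a
        exact Set.ext_iff.1 heq a
      · intro g hg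
        rw [Finset.mem_filter] at hg
        exact (hG g hg.1).2.2.1
      · intro g hg x b hb
        rw [Finset.mem_filter] at hg
        have h3 := (hG g hg.1).2.2.2.2.2 x b hb
        have h4 : (M (f g0) X Y).filter (fun a => n g ⬝ᵥ a = d g)
            = (M g X Y).filter (fun a => n g ⬝ᵥ a = d g) := by
          rw [← hg.2]
          ext a
          rw [Finset.mem_filter, Finset.mem_filter]
          constructor
          · rintro ⟨h5, h6⟩
            exact ⟨(M_prt_plane g (hG g hg.1).2.1 X Y h6).1 h5, h6⟩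
          · rintro ⟨h5, h6⟩
            exact ⟨(M_prt_plane g (hG g hg.1).2.1 X Y h6).2 h5, h6⟩
        rw [h4]
        exact h3
  calc _ ≤ ∑ h ∈ G.image f, 5 * A ^ (-η) * wt η K1 (M h X Y) := Finset.sum_le_sum h2
    _ = 5 * A ^ (-η) * Re η K1 (G.image f) X Y := by
        unfold Re
        rw [Finset.mul_sum]
    _ ≤ _ := by
        apply mul_le_mul_of_nonneg_left _ (by positivity)
        apply Re_le_full hK1
        intro h hh
        obtain ⟨g, hg, rfl⟩ := Finset.mem_image.1 hh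
        exact orth_prt (hG g hg).1 _ _ (hG g hg).2.1

end Vale.Agent.P054.R
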