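import Vale.Agent.P054.R.AbsorbA

/-! P054, block R: the black box `AbsorbStmt`. -/

set_option linter.all false
set_option autoImplicit false

namespace Vale.Agent.P054.R.Ab

open Finset Matrix Vale.Agent.P054.R Vale.Agent.P054.Y.ST

theorem planes_real (S : Finset V3) (k : ℕ) (hk : 16 ≤ k) (hkr : k ≤ rho S) (ι : Type)
    (I : Finset ι) (n : ι → V3)
    (d : ι → ℝ) (hn : ∀ i ∈ I, n i ≠ 0)
    (hdiff : ∀ i ∈ I, ∀ j ∈ I, i ≠ j → ¬ (∀ a, OnP (n i) (d i) a ↔ OnP (n j) (d j) a))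
    (h : ∀ i ∈ I, ∃ x1 b1 x2 b2 : V3, b1 ≠ 0 ∧ b2 ≠ 0 ∧
      DiffL x1 b1 x2 b2 ∧ LinP x1 b1 (n i) (d i) ∧ LinP x2 b2 (n i) (d i) ∧
      k ≤ on S x1 b1 ∧ k ≤ on S x2 b2) :
    (#I : ℝ) * k ^ 4 ≤ 9000 * ((rho S : ℝ) ^ 3 + (rho S : ℝ) ^ 2 * k ^ 2) := by
  obtain ⟨S0, N1, N2, hS0, hI, h1, h2⟩ := planes_nat S k hk ι I n d hn hdiff h
  have h3 := card_rich_le S0 (k - 1) (by omega)
  rw [hS0] at h3
  have hIr : (#I : ℝ) = N1 + N2 := by exact_mod_cast hI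
  have h1' : (N1 : ℝ) * ((k : ℝ) - 2) ≤ #(rich S0 (k - 1)) * rho S := by
    have : ((N1 * (k - 2) : ℕ) : ℝ) ≤ ((#(rich S0 (k - 1)) * rho S : ℕ) : ℝ) := by exact_mod_cast h1
    rw [Nat.cast_mul, Nat.cast_mul, Nat.cast_sub (by omega : 2 ≤ k)] at this
    exact_mod_cast this
  have h2' : (N2 : ℝ) * ((k : ℝ) - 1) ≤ rho S := by
    have : ((N2 * (k - 1) : ℕ) : ℝ) ≤ ((rho S : ℕ) : ℝ) := by exact_mod_cast h2
    rw [Nat.cast_mul, Nat.cast_sub (by omega : 1 ≤ k)] at this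
    exact_mod_cast this
  rw [Nat.cast_sub (by omega : 1 ≤ k), Nat.cast_one] at h3
  have hk' : (16 : ℝ) ≤ k := by exact_mod_cast hk
  have hkr' : (k : ℝ) ≤ rho S := by exact_mod_cast hkr
  rw [hIr]
  generalize (#(rich S0 (k - 1)) : ℝ) = R at *
  have hN1 : (0 : ℝ) ≤ N1 := Nat.cast_nonneg _
  have hN2 : (0 : ℝ) ≤ N2 := Nat.cast_nonneg _
  generalize (N1 : ℝ) = a at *
  generalize (N2 : ℝ) = b at *
  generalize (k : ℝ) = κ at *
  generalize (rho S : ℝ) = r at *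
  have hκ0 : 0 < κ := by linarith
  have hr0 : 0 < r := by linarith
  -- R ≤ 6000 (r²/(κ-1)³ + r/(κ-1))
  have hq : 15 / 16 * κ ≤ κ - 1 := by linarith
  have e1 : r ^ 2 / (κ - 1) ^ 3 ≤ 5 / 4 * (r ^ 2 / κ ^ 3) := by
    have h5 : (15 / 16 * κ) ^ 3 ≤ (κ - 1) ^ 3 := by gcongr
    calc r ^ 2 / (κ - 1) ^ 3 ≤ r ^ 2 / (15 / 16 * κ) ^ 3 := by gcongr
      _ = (16 / 15) ^ 3 * (r ^ 2 / κ ^ 3) := by
        rw [mul_pow, div_mul_eq_div_div]
        field_simp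
      _ ≤ 5 / 4 * (r ^ 2 / κ ^ 3) := by
        apply mul_le_mul_of_nonneg_right _ (by positivity)
        norm_num
  have e2 : r / (κ - 1) ≤ 5 / 4 * (r / κ) := by
    calc r / (κ - 1) ≤ r / (15 / 16 * κ) := by gcongr
      _ = 16 / 15 * (r / κ) := by field_simp
      _ ≤ 5 / 4 * (r / κ) := by
        apply mul_le_mul_of_nonneg_right _ (by positivity)
        norm_num
  have hR : R ≤ 7500 * (r ^ 2 / κ ^ 3 + r / κ) := by linarith
  have hR2 : R * κ ^ 3 ≤ 7500 * (r ^ 2 + r * κ ^ 2) := by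
    have h6 : R * κ ^ 3 ≤ 7500 * (r ^ 2 / κ ^ 3 + r / κ) * κ ^ 3 :=
      mul_le_mul_of_nonneg_right hR (by positivity)
    refine h6.trans (le_of_eq ?_)
    field_simp
  -- a κ ≤ (8/7) R r
  have e3 : a * κ ≤ 8 / 7 * (R * r) := by
    have : a * (7 / 8 * κ) ≤ a * (κ - 2) := mul_le_mul_of_nonneg_left (by linarith) hN1
    linarith
  have e4 : b * κ ≤ 16 / 15 * r := by
    have : b * (15 / 16 * κ) ≤ b * (κ - 1) := mul_le_mul_of_nonneg_left (by linarith) hN2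
    linarith
  have e5 : a * κ ^ 4 ≤ 8 / 7 * 7500 * (r ^ 3 + r ^ 2 * κ ^ 2) := by
    have h6 : a * κ * κ ^ 3 ≤ 8 / 7 * (R * r) * κ ^ 3 :=
      mul_le_mul_of_nonneg_right e3 (by positivity)
    have h7 : R * κ ^ 3 * r ≤ 7500 * (r ^ 2 + r * κ ^ 2) * r :=
      mul_le_mul_of_nonneg_right hR2 hr0.le
    linarith [show a * κ ^ 4 = a * κ * κ ^ 3 by ring,
      show 8 / 7 * (R * r) * κ ^ 3 = 8 / 7 * (R * κ ^ 3 * r) by ring,
      show 7500 * (r ^ 2 + r * κ ^ 2) * r = 7500 * (r ^ 3 + r ^ 2 * κ ^ 2) by ring]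
  have e6 : b * κ ^ 4 ≤ 16 / 15 * (r ^ 2 * κ ^ 2) := by
    have h6 : b * κ * κ ^ 3 ≤ 16 / 15 * r * κ ^ 3 :=
      mul_le_mul_of_nonneg_right e4 (by positivity)
    have h7 : r * κ ^ 3 ≤ r ^ 2 * κ ^ 2 := by
      have h8 : 0 ≤ r * κ ^ 2 := by positivity
      nlinarith
    linarith [show b * κ ^ 4 = b * κ * κ ^ 3 by ring,
      show 16 / 15 * r * κ ^ 3 = 16 / 15 * (r * κ ^ 3) by ring]
  have e7 : 0 ≤ r ^ 3 := by positivity
  have e8 : 0 ≤ r ^ 2 * κ ^ 2 := by positivity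
  linarith [show (a + b) * κ ^ 4 = a * κ ^ 4 + b * κ ^ 4 by ring]

theorem sum_inv_two_le (J : Finset ℕ) (c : ℝ) (hc : 0 < c) (h : ∀ j ∈ J, c ≤ 2 ^ j) :
    ∑ j ∈ J, (1 / 2 : ℝ) ^ j ≤ 2 / c := by
  rcases J.eq_empty_or_nonempty with rfl | hne
  · rw [sum_empty]; positivity
  set j0 := J.min' hne with hj0
  set j1 := J.max' hne + 1 with hj1
  have hsub : J ⊆ Ico j0 j1 := by
    intro j hj
    rw [mem_Ico]
    exact ⟨J.min'_le j hj, Nat.lt_succ_of_le (J.le_max' j hj)⟩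
  have h1 : ∑ j ∈ J, (1 / 2 : ℝ) ^ j ≤ ∑ j ∈ Ico j0 j1, (1 / 2 : ℝ) ^ j :=
    sum_le_sum_of_subset_of_nonneg hsub (fun i _ _ => by positivity)
  have h2 : ∀ m n : ℕ, ∑ j ∈ Ico m n, (1 / 2 : ℝ) ^ j ≤ 2 * (1 / 2) ^ m := by
    intro m n
    by_cases hmn : m ≤ n
    · have h3 : ∑ j ∈ Ico m n, (1 / 2 : ℝ) ^ j = 2 * (1 / 2) ^ m - 2 * (1 / 2) ^ n := by
        induction n, hmn using Nat.le_induction with
        | base => simp
        | succ n hn ih =>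
          rw [Finset.sum_Ico_succ_top hn, ih, pow_succ]
          ring
      rw [h3]
      have : (0 : ℝ) ≤ 2 * (1 / 2) ^ n := by positivity
      linarith
    · rw [Finset.Ico_eq_empty (by omega : ¬ m < n), sum_empty]
      positivity
  have h3 : (1 / 2 : ℝ) ^ j0 ≤ 1 / c := by
    rw [_root_.one_div_pow]
    exact one_div_le_one_div_of_le hc (h j0 (J.min'_mem hne))
  calc ∑ j ∈ J, (1 / 2 : ℝ) ^ j ≤ 2 * (1 / 2) ^ j0 := h1.trans (h2 _ _)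
    _ ≤ 2 * (1 / c) := by linarith
    _ = 2 / c := by ring

theorem sum_two_le (J : Finset ℕ) (c : ℝ) (hc : 0 ≤ c) (h : ∀ j ∈ J, (2 : ℝ) ^ j ≤ c) :
    ∑ j ∈ J, (2 : ℝ) ^ j ≤ 2 * c := by
  rcases J.eq_empty_or_nonempty with rfl | hne
  · rw [sum_empty]; positivity
  set j1 := J.max' hne with hj1
  have h1 : ∑ j ∈ J, 2 ^ j < 2 ^ (j1 + 1) :=
    Nat.geomSum_lt le_rfl (fun j hj => Nat.lt_succ_of_le (J.le_max' j hj))
  have h2 : ∑ j ∈ J, (2 : ℝ) ^ j ≤ 2 ^ (j1 + 1) := by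
    have : ((∑ j ∈ J, 2 ^ j : ℕ) : ℝ) ≤ ((2 ^ (j1 + 1) : ℕ) : ℝ) := by exact_mod_cast h1.le
    push_cast at this
    exact this
  have h3 := h j1 (J.max'_mem hne)
  rw [pow_succ] at h2
  linarith

end Vale.Agent.P054.R.Ab

namespace Vale.Agent.P054.R

open Finset Matrix

theorem absorb_stmt : AbsorbStmt := by
  classical
  refine ⟨300000, by norm_num, ?_⟩
  intro S K2 K3 hK2 hK3 ι I n d k hn hdiff h
  set J : Finset ℕ := I.image (fun i => Nat.log 2 (k i)) with hJ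
  set r : ℝ := ((rho S : ℕ) : ℝ) with hr
  have hK2' : (16 : ℝ) ≤ K2 := by exact_mod_cast hK2
  have hK3' : (1 : ℝ) ≤ K3 := by exact_mod_cast hK3
  have hr0 : 0 ≤ r := Nat.cast_nonneg _
  have hlog : ∀ i ∈ I, 2 ^ Nat.log 2 (k i) ≤ k i ∧ k i < 2 ^ (Nat.log 2 (k i) + 1) := by
    intro i hi
    have h1 := (h i hi).1
    exact ⟨Nat.pow_log_le_self 2 (by omega), Nat.lt_pow_succ_log_self (by norm_num) _⟩
  -- bound on each dyadic class
  have hclass : ∀ j ∈ J, ∑ i ∈ I.filter (fun i => Nat.log 2 (k i) = j), ((k i : ℕ) : ℝ) ^ 3 ≤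
      72000 * (r ^ 3 * (1 / 2) ^ j + r ^ 2 * 2 ^ j) := by
    intro j hj
    obtain ⟨i0, hi0, hi0j⟩ := mem_image.mp hj
    have h16 : 16 ≤ 2 ^ j := by
      have h1 := (h i0 hi0).1
      have h2 := (hlog i0 hi0).2
      rw [hi0j] at h2
      have h3 : 2 ^ 4 < 2 ^ (j + 1) := by omega
      have h4 : 4 < j + 1 := (Nat.pow_lt_pow_iff_right (by norm_num)).1 h3
      calc 16 = 2 ^ 4 := by norm_num
        _ ≤ 2 ^ j := Nat.pow_le_pow_right (by norm_num) (by omega)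
    have hjr : 2 ^ j ≤ rho S := by
      have h1 := (h i0 hi0).2.1
      have h2 := (hlog i0 hi0).1
      rw [hi0j] at h2
      calc 2 ^ j ≤ k i0 := h2
        _ ≤ K3 * k i0 := Nat.le_mul_of_pos_left _ (by omega)
        _ ≤ rho S := h1
    have hmain := Ab.planes_real S (2 ^ j) h16 hjr ι (I.filter (fun i => Nat.log 2 (k i) = j)) n d
      (fun i hi => hn i (mem_filter.mp hi).1)
      (fun i hi i' hi' => hdiff i (mem_filter.mp hi).1 i' (mem_filter.mp hi').1) (by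
        intro i hi
        obtain ⟨hiI, hij⟩ := mem_filter.mp hi
        obtain ⟨_, _, x1, b1, x2, b2, g1, g2, g3, g4, g5, g6, g7⟩ := h i hiI
        have h2 := (hlog i hiI).1
        rw [hij] at h2
        exact ⟨x1, b1, x2, b2, g1, g2, g3, g4, g5, h2.trans g6, h2.trans g7⟩)
    have hsum : ∑ i ∈ I.filter (fun i => Nat.log 2 (k i) = j), ((k i : ℕ) : ℝ) ^ 3 ≤
        #(I.filter (fun i => Nat.log 2 (k i) = j)) * (8 * (2 ^ j) ^ 3) := by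
      rw [← nsmul_eq_mul, ← sum_const]
      refine sum_le_sum fun i hi => ?_
      obtain ⟨hiI, hij⟩ := mem_filter.mp hi
      have h2 := (hlog i hiI).2
      rw [hij, pow_succ] at h2
      have h3 : ((k i : ℕ) : ℝ) ≤ 2 ^ j * 2 := by exact_mod_cast h2.le
      calc ((k i : ℕ) : ℝ) ^ 3 ≤ (2 ^ j * 2) ^ 3 := by gcongr
        _ = 8 * (2 ^ j) ^ 3 := by ring
    have hP : (0 : ℝ) < 2 ^ j := by positivity
    push_cast at hmain
    rw [← hr] at hmain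
    have hinv : (1 / 2 : ℝ) ^ j = 1 / 2 ^ j := by rw [_root_.one_div_pow]
    rw [hinv]
    generalize (#(I.filter (fun i => Nat.log 2 (k i) = j)) : ℝ) = N at *
    generalize (2 : ℝ) ^ j = P at *
    refine hsum.trans ?_
    rw [← mul_le_mul_iff_left₀ hP]
    calc N * (8 * P ^ 3) * P = 8 * (N * P ^ 4) := by ring
      _ ≤ 8 * (9000 * (r ^ 3 + r ^ 2 * P ^ 2)) := by linarith
      _ = 72000 * (r ^ 3 * (1 / P) + r ^ 2 * P) * P := by
        field_simp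
        ring
  have htot : ∑ i ∈ I, ((k i : ℕ) : ℝ) ^ 3 ≤
      ∑ j ∈ J, 72000 * (r ^ 3 * (1 / 2) ^ j + r ^ 2 * 2 ^ j) := by
    rw [← sum_fiberwise_of_maps_to (t := J) (g := fun i => Nat.log 2 (k i))
      (fun i hi => mem_image_of_mem _ hi)]
    exact sum_le_sum hclass
  have hs1 : ∑ j ∈ J, (1 / 2 : ℝ) ^ j ≤ 2 / ((K2 : ℝ) / 2) := by
    refine Ab.sum_inv_two_le J _ (by linarith) ?_
    intro j hj
    obtain ⟨i0, hi0, hi0j⟩ := mem_image.mp hj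
    have h1 := (h i0 hi0).1
    have h2 := (hlog i0 hi0).2
    rw [hi0j, pow_succ] at h2
    have h3 : (K2 : ℝ) ≤ 2 ^ j * 2 := by exact_mod_cast (h1.trans h2.le)
    linarith
  have hs2 : ∑ j ∈ J, (2 : ℝ) ^ j ≤ 2 * (r / K3) := by
    refine Ab.sum_two_le J _ (by positivity) ?_
    intro j hj
    obtain ⟨i0, hi0, hi0j⟩ := mem_image.mp hj
    have h1 := (h i0 hi0).2.1
    have h2 := (hlog i0 hi0).1
    rw [hi0j] at h2
    rw [le_div_iff₀ (by linarith)]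
    have h3 : 2 ^ j * K3 ≤ rho S := by
      calc 2 ^ j * K3 ≤ k i0 * K3 := Nat.mul_le_mul_right _ h2
        _ = K3 * k i0 := Nat.mul_comm _ _
        _ ≤ rho S := h1
    rw [hr]
    exact_mod_cast h3
  calc ∑ i ∈ I, ((k i : ℕ) : ℝ) ^ 3 ≤ ∑ j ∈ J, 72000 * (r ^ 3 * (1 / 2) ^ j + r ^ 2 * 2 ^ j) := htot
    _ = 72000 * (r ^ 3 * ∑ j ∈ J, (1 / 2 : ℝ) ^ j + r ^ 2 * ∑ j ∈ J, (2 : ℝ) ^ j) := by
      rw [← mul_sum, sum_add_distrib, ← mul_sum, ← mul_sum]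
    _ ≤ 72000 * (r ^ 3 * (2 / ((K2 : ℝ) / 2)) + r ^ 2 * (2 * (r / K3))) := by
      gcongr
    _ = 288000 * (r ^ 3 * (1 / K2)) + 144000 * (r ^ 3 * (1 / K3)) := by
      field_simp
      ring
    _ ≤ 300000 * r ^ 3 * (1 / K2 + 1 / K3) := by
      have h1 : 0 ≤ r ^ 3 * (1 / (K2 : ℝ)) := by positivity
      have h2 : 0 ≤ r ^ 3 * (1 / (K3 : ℝ)) := by positivity
      linarith [show 300000 * r ^ 3 * (1 / (K2 : ℝ) + 1 / K3) =
        300000 * (r ^ 3 * (1 / (K2 : ℝ))) + 300000 * (r ^ 3 * (1 / (K3 : ℝ))) by ring]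

end Vale.Agent.P054.R
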