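import Vale.Agent.P054.Y.STe

/-! P054, block R: the black box `AbsorbStmt` (planes with two rich lines). -/

set_option linter.all false
set_option autoImplicit false

namespace Vale.Agent.P054.R.Ab

open Finset Matrix Vale.Agent.P054.R Vale.Agent.P054.Y.ST

theorem exists_rho (S : Finset V3) : ∃ x b : V3, b ≠ 0 ∧ off S x b = rho S := by
  have h : rho S ∈ {k | ∃ x b : V3, b ≠ 0 ∧ off S x b = k} := by
    apply Nat.sInf_mem
    refine ⟨off S 0 (fun _ => 1), 0, (fun _ => 1), ?_, rfl⟩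
    intro h
    have := congrFun h 0
    simp at this
  exact h

theorem onP_of_onL {x b n a : V3} {d : ℝ} (hb : b ≠ 0) (h : LinP x b n d) (ha : OnL x b a) :
    OnP n d a := by
  obtain ⟨t, rfl⟩ := (onL_iff hb a).1 ha
  unfold OnP
  rw [dotProduct_add, dotProduct_smul, h.1, h.2, smul_zero, add_zero]

theorem inter_lines {x b x' b' p q : V3} (hb : b ≠ 0) (hb' : b' ≠ 0) (h : DiffL x b x' b')
    (hp : OnL x b p) (hp' : OnL x' b' p) (hq : OnL x b q) (hq' : OnL x' b' q) : p = q := by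
  by_contra hne
  exact h (fun a => (onL_two hb hp hq hne a).symm.trans (onL_two hb' hp' hq' hne a))

theorem diffL_symm {x b x' b' : V3} (h : DiffL x b x' b') : DiffL x' b' x b :=
  fun hh => h (fun a => (hh a).symm)

open scoped Classical in
/-- a rich line keeps at least `k - 1` points when another line is removed -/
theorem card_sub_one (S : Finset V3) {x b x' b' : V3} (hb : b ≠ 0) (hb' : b' ≠ 0)
    (h : DiffL x b x' b') :
    #(S.filter (fun a => OnL x b a)) ≤ #((S.filter (fun a => OnL x b a)).filter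
      (fun a => ¬ OnL x' b' a)) + 1 := by
  rw [← card_filter_add_card_filter_not (s := S.filter (fun a => OnL x b a))
    (fun a => OnL x' b' a), add_comm]
  refine Nat.add_le_add_left ?_ _
  rw [Finset.card_le_one]
  intro p hp q hq
  obtain ⟨hp1, hp2⟩ := mem_filter.mp hp
  obtain ⟨hq1, hq2⟩ := mem_filter.mp hq
  exact inter_lines hb hb' h (mem_filter.mp hp1).2 hp2 (mem_filter.mp hq1).2 hq2

open scoped Classical in
theorem pencil (T : Finset V3) (x b : V3) {ι : Type} (I : Finset ι) (n : ι → V3)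
    (d : ι → ℝ) (κ : ℕ) (hn : ∀ i ∈ I, n i ≠ 0)
    (hdiff : ∀ i ∈ I, ∀ j ∈ I, i ≠ j → ¬ (∀ a, OnP (n i) (d i) a ↔ OnP (n j) (d j) a))
    (hin : ∀ i ∈ I, LinP x b (n i) (d i))
    (hκ : ∀ i ∈ I, κ ≤ #(T.filter (fun a => OnP (n i) (d i) a ∧ ¬ OnL x b a))) :
    #I * κ ≤ #T := by
  set F : ι → Finset V3 := fun i => T.filter (fun a => OnP (n i) (d i) a ∧ ¬ OnL x b a) with hF
  have hdis : Set.PairwiseDisjoint (I : Set ι) F := by
    intro i hi j hj hne
    rw [Function.onFun, Finset.disjoint_left]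
    intro a ha ha'
    obtain ⟨_, h1, h2⟩ := mem_filter.mp ha
    obtain ⟨_, h1', _⟩ := mem_filter.mp ha'
    apply hdiff i hi j hj hne
    have hx1 : (n i) ⬝ᵥ (x + b) = d i := by
      rw [dotProduct_add, (hin i hi).1, (hin i hi).2, add_zero]
    have hx2 : (n j) ⬝ᵥ (x + b) = d j := by
      rw [dotProduct_add, (hin j hj).1, (hin j hj).2, add_zero]
    have h3 : crossProduct (a - x) (x + b - x) ≠ 0 := by
      rw [add_sub_cancel_left]
      exact h2
    have h4 := Vale.Agent.P054.Y.Sec.plane_unique (hn i hi) (hn j hj) h3 (hin i hi).1 hx1 h1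
      (hin j hj).1 hx2 h1'
    intro c
    have h5 := Set.ext_iff.mp h4 c
    exact h5
  calc #I * κ = ∑ i ∈ I, κ := by rw [sum_const, smul_eq_mul]
    _ ≤ ∑ i ∈ I, #(F i) := sum_le_sum hκ
    _ = #(I.biUnion F) := (card_biUnion hdis).symm
    _ ≤ #T := by
      refine card_le_card fun p hp => ?_
      obtain ⟨i, _, hp⟩ := mem_biUnion.mp hp
      exact (mem_filter.mp hp).1

open scoped Classical in
theorem planes_nat (S : Finset V3) (k : ℕ) (hk : 16 ≤ k) (ι : Type) (I : Finset ι) (n : ι → V3)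
    (d : ι → ℝ) (hn : ∀ i ∈ I, n i ≠ 0)
    (hdiff : ∀ i ∈ I, ∀ j ∈ I, i ≠ j → ¬ (∀ a, OnP (n i) (d i) a ↔ OnP (n j) (d j) a))
    (h : ∀ i ∈ I, ∃ x1 b1 x2 b2 : V3, b1 ≠ 0 ∧ b2 ≠ 0 ∧
      DiffL x1 b1 x2 b2 ∧ LinP x1 b1 (n i) (d i) ∧ LinP x2 b2 (n i) (d i) ∧
      k ≤ on S x1 b1 ∧ k ≤ on S x2 b2) :
    ∃ (S0 : Finset V3) (N1 N2 : ℕ), #S0 = rho S ∧ #I = N1 + N2 ∧
      N1 * (k - 2) ≤ #(rich S0 (k - 1)) * rho S ∧ N2 * (k - 1) ≤ rho S := by
  obtain ⟨x0, b0, hb0, hoff⟩ := exists_rho S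
  set S0 := S.filter (fun a => ¬ OnL x0 b0 a) with hS0
  have hcard : #S0 = rho S := by
    rw [← hoff]
    unfold off
    rfl
  choose! x1 b1 x2 b2 hb1 hb2 hD hL1 hL2 hk1 hk2 using h
  -- rich lines different from `l0` have many points in `S0`
  have hrich : ∀ x b : V3, b ≠ 0 → DiffL x b x0 b0 → k ≤ on S x b →
      k - 1 ≤ #(S0.filter (fun a => OnL x b a)) := by
    intro x b hb hD hon
    have h1 := card_sub_one S hb hb0 hD
    have h2 : (S.filter (fun a => OnL x b a)).filter (fun a => ¬ OnL x0 b0 a) =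
        S0.filter (fun a => OnL x b a) := by
      rw [hS0, filter_filter, filter_filter]
      refine filter_congr fun a _ => ?_
      tauto
    rw [h2] at h1
    have h3 : k ≤ #(S.filter (fun a => OnL x b a)) := hon
    omega
  set I2 := I.filter (fun i => LinP x0 b0 (n i) (d i)) with hI2
  set I1 := I.filter (fun i => ¬ LinP x0 b0 (n i) (d i)) with hI1
  have hI12 : #I = #I1 + #I2 := by
    rw [add_comm]
    exact (card_filter_add_card_filter_not _).symm
  refine ⟨S0, #I1, #I2, hcard, hI12, ?_, ?_⟩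
  · -- planes not containing `l0`
    have hdf : ∀ i ∈ I1, DiffL (x1 i) (b1 i) x0 b0 ∧ DiffL (x2 i) (b2 i) x0 b0 := by
      intro i hi
      obtain ⟨hiI, hi0⟩ := mem_filter.mp hi
      have key : ∀ x b : V3, b ≠ 0 → LinP x b (n i) (d i) → DiffL x b x0 b0 := by
        intro x b hb hL hh
        apply hi0
        have e1 : OnP (n i) (d i) x0 :=
          onP_of_onL hb hL ((hh x0).2 ((onL_iff hb0 x0).2 ⟨0, by simp⟩))
        have e2 : OnP (n i) (d i) (x0 + b0) :=
          onP_of_onL hb hL ((hh (x0 + b0)).2 ((onL_iff hb0 _).2 ⟨1, by simp⟩))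
        refine ⟨e1, ?_⟩
        unfold OnP at e1 e2
        rw [dotProduct_add, e1] at e2
        linarith
      exact ⟨key _ _ (hb1 i hiI) (hL1 i hiI), key _ _ (hb2 i hiI) (hL2 i hiI)⟩
    set A : ι → Finset V3 := fun i => S0.filter (fun a => OnL (x1 i) (b1 i) a) with hA
    have hAr : ∀ i ∈ I1, A i ∈ rich S0 (k - 1) := by
      intro i hi
      have hiI := (mem_filter.mp hi).1
      refine mem_filter.mpr ⟨mem_powerset.mpr (filter_subset _ _), ?_, x1 i, b1 i, hb1 i hiI, rfl⟩
      exact hrich _ _ (hb1 i hiI) (hdf i hi).1 (hk1 i hiI)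
    have hfib : ∀ B ∈ rich S0 (k - 1), #(I1.filter (fun i => A i = B)) * (k - 2) ≤ rho S := by
      intro B hB
      have hkB : k - 1 ≤ #B := (mem_filter.mp hB).2.1
      obtain ⟨p, hp, q, hq, hpq⟩ := Finset.one_lt_card.mp (by omega : 1 < #B)
      rw [← hcard]
      refine pencil S0 p (q - p) (I1.filter (fun i => A i = B)) n d (k - 2) ?_ ?_ ?_ ?_
      · intro i hi
        exact hn i (mem_filter.mp (mem_filter.mp hi).1).1
      · intro i hi j hj
        exact hdiff i (mem_filter.mp (mem_filter.mp hi).1).1 j (mem_filter.mp (mem_filter.mp hj).1).1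
      · intro i hi
        obtain ⟨hi1, hiA⟩ := mem_filter.mp hi
        have hiI := (mem_filter.mp hi1).1
        have hp1 : OnL (x1 i) (b1 i) p := (mem_filter.mp (hiA ▸ hp)).2
        have hq1 : OnL (x1 i) (b1 i) q := (mem_filter.mp (hiA ▸ hq)).2
        have e1 : n i ⬝ᵥ p = d i := onP_of_onL (hb1 i hiI) (hL1 i hiI) hp1
        have e2 : n i ⬝ᵥ q = d i := onP_of_onL (hb1 i hiI) (hL1 i hiI) hq1
        refine ⟨e1, ?_⟩
        rw [dotProduct_sub, e1, e2, sub_self]
      · intro i hi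
        obtain ⟨hi1, hiA⟩ := mem_filter.mp hi
        have hiI := (mem_filter.mp hi1).1
        have hp1 : OnL (x1 i) (b1 i) p := (mem_filter.mp (hiA ▸ hp)).2
        have hq1 : OnL (x1 i) (b1 i) q := (mem_filter.mp (hiA ▸ hq)).2
        have h1 := hrich _ _ (hb2 i hiI) (hdf i hi1).2 (hk2 i hiI)
        have h2 := card_sub_one S0 (hb2 i hiI) (hb1 i hiI) (diffL_symm (hD i hiI))
        have h3 : (S0.filter (fun a => OnL (x2 i) (b2 i) a)).filter
            (fun a => ¬ OnL (x1 i) (b1 i) a) ⊆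
            S0.filter (fun a => OnP (n i) (d i) a ∧ ¬ OnL p (q - p) a) := by
          intro a ha
          obtain ⟨ha1, ha2⟩ := mem_filter.mp ha
          obtain ⟨ha3, ha4⟩ := mem_filter.mp ha1
          refine mem_filter.mpr ⟨ha3, onP_of_onL (hb2 i hiI) (hL2 i hiI) ha4, ?_⟩
          rw [onL_two (hb1 i hiI) hp1 hq1 hpq]
          exact ha2
        have h4 := card_le_card h3
        omega
    calc #I1 * (k - 2) = (∑ B ∈ rich S0 (k - 1), #(I1.filter (fun i => A i = B))) * (k - 2) := by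
          rw [← card_eq_sum_card_fiberwise (f := A) (t := rich S0 (k - 1)) (fun i hi => hAr i hi)]
      _ = ∑ B ∈ rich S0 (k - 1), #(I1.filter (fun i => A i = B)) * (k - 2) := by rw [sum_mul]
      _ ≤ ∑ B ∈ rich S0 (k - 1), rho S := sum_le_sum hfib
      _ = #(rich S0 (k - 1)) * rho S := by rw [sum_const, smul_eq_mul]
  · -- planes containing `l0`
    rw [← hcard]
    refine pencil S0 x0 b0 I2 n d (k - 1) ?_ ?_ ?_ ?_
    · intro i hi
      exact hn i (mem_filter.mp hi).1
    · intro i hi j hj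
      exact hdiff i (mem_filter.mp hi).1 j (mem_filter.mp hj).1
    · intro i hi
      exact (mem_filter.mp hi).2
    · intro i hi
      have hiI := (mem_filter.mp hi).1
      have key : ∀ x b : V3, b ≠ 0 → LinP x b (n i) (d i) → DiffL x b x0 b0 → k ≤ on S x b →
          k - 1 ≤ #(S0.filter (fun a => OnP (n i) (d i) a ∧ ¬ OnL x0 b0 a)) := by
        intro x b hb hL hdl hon
        refine (hrich x b hb hdl hon).trans (card_le_card fun a ha => ?_)
        obtain ⟨ha1, ha2⟩ := mem_filter.mp ha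
        exact mem_filter.mpr ⟨ha1, onP_of_onL hb hL ha2, (mem_filter.mp ha1).2⟩
      by_cases h0 : DiffL (x1 i) (b1 i) x0 b0
      · exact key _ _ (hb1 i hiI) (hL1 i hiI) h0 (hk1 i hiI)
      · refine key _ _ (hb2 i hiI) (hL2 i hiI) ?_ (hk2 i hiI)
        intro hh
        unfold DiffL at h0
        push Not at h0
        exact hD i hiI (fun a => (h0 a).trans (hh a).symm)

end Vale.Agent.P054.R.Ab
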