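import Vale.Agent.P054.R.Main

/-! P054, Theorem R, unconditional: `R.r_stmt : RStmt` (now in `R/Main.lean`). -/
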