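import Vale.Agent.P054.R.Basic
import Mathlib.LinearAlgebra.Matrix.DotProduct

/-! P054, block R, leaf FING: only finitely many isometries match three non collinear points.
Proof. `rho (M g X Y) ≥ 1` gives `a, b, c ∈ M g X Y` with `u ×ᵥ w ≠ 0`, `u = b - a`, `w = c - a`
(else all points are on a line and `rho = 0`).  The map
`g ↦ ((a, b, c), (g a, g b, g c), sign of det Q)` has finite image (in `X³ × Y³ × Bool`) and is
injective: `Q u`, `Q w` are determined, `Q (u ×ᵥ w) = det Q • (Q u ×ᵥ Q w)` (`det Q = ±1`), and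
`u, w, u ×ᵥ w` is a basis. -/

set_option linter.all false
set_option autoImplicit false

namespace Vale.Agent.P054.R

open Finset Matrix

theorem FinG_off_zero {S : Finset V3} {x b : V3} (h : ∀ c ∈ S, OnL x b c) : off S x b = 0 := by
  classical
  unfold off
  rw [Finset.card_eq_zero, Finset.filter_eq_empty_iff]
  intro c hc hn
  exact hn (h c hc)

theorem FinG_triple {S : Finset V3} (h : 1 ≤ rho S) :
    ∃ a ∈ S, ∃ b ∈ S, ∃ c ∈ S, crossProduct (b - a) (c - a) ≠ 0 := by
  by_contra hcon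
  push Not at hcon
  have hz : ∀ x b : V3, b ≠ 0 → (∀ c ∈ S, OnL x b c) → False := by
    intro x b hb hc
    have h1 := rho_le_off S x b hb
    rw [FinG_off_zero hc] at h1
    omega
  by_cases h2 : ∃ a ∈ S, ∃ b ∈ S, b ≠ a
  · obtain ⟨a, ha, b, hb, hab⟩ := h2
    exact hz a (b - a) (sub_ne_zero.2 hab) fun c hc => hcon a ha c hc b hb
  · push Not at h2
    have he : (Pi.single 0 1 : V3) ≠ 0 := by
      intro h3
      have := congrFun h3 0
      simp at this
    rcases S.eq_empty_or_nonempty with h3 | ⟨a, ha⟩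
    · exact hz 0 _ he fun c hc => by rw [h3] at hc; exact absurd hc (Finset.notMem_empty c)
    · refine hz a _ he fun c hc => ?_
      unfold OnL
      rw [h2 a ha c hc, sub_self]
      simp

theorem FinG_cross (Q : Matrix (Fin 3) (Fin 3) ℝ) (u w : V3) :
    Qᵀ.mulVec (crossProduct (Q.mulVec u) (Q.mulVec w)) = Q.det • crossProduct u w := by
  ext i
  fin_cases i <;>
    simp [Matrix.mulVec, dotProduct, Fin.sum_univ_three, Matrix.det_fin_three, cross_apply] <;>
    ring

theorem FinG_det {Q : Matrix (Fin 3) (Fin 3) ℝ} (h : Qᵀ * Q = 1) : Q.det = 1 ∨ Q.det = -1 := by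
  have h1 : Q.det * Q.det = 1 := by
    have := congrArg Matrix.det h
    rwa [Matrix.det_mul, Matrix.det_transpose, Matrix.det_one] at this
  exact mul_self_eq_one_iff.1 h1

theorem FinG_cross' {Q : Matrix (Fin 3) (Fin 3) ℝ} (h : Qᵀ * Q = 1) (u w : V3) :
    Q.mulVec (crossProduct u w) = Q.det • crossProduct (Q.mulVec u) (Q.mulVec w) := by
  have h1 : Q * Qᵀ = 1 := mul_eq_one_comm.1 h
  have h2 := congrArg (fun v => Q.det • Q.mulVec v) (FinG_cross Q u w)
  simp only [Matrix.mulVec_mulVec, h1, Matrix.one_mulVec, Matrix.mulVec_smul, smul_smul] at h2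
  have h3 : Q.det * Q.det = 1 := by
    rcases FinG_det h with h | h <;> rw [h] <;> norm_num
  rw [h3, one_smul] at h2
  exact h2.symm

theorem FinG_inj {Q Q' : Matrix (Fin 3) (Fin 3) ℝ} (h : Qᵀ * Q = 1) (h' : Q'ᵀ * Q' = 1)
    (hd : Q.det = Q'.det) {u w : V3} (huw : crossProduct u w ≠ 0)
    (hu : Q.mulVec u = Q'.mulVec u) (hw : Q.mulVec w = Q'.mulVec w) : Q = Q' := by
  have hc : Q.mulVec (crossProduct u w) = Q'.mulVec (crossProduct u w) := by
    rw [FinG_cross' h, FinG_cross' h', hd, hu, hw]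
  set P : Matrix (Fin 3) (Fin 3) ℝ := (Matrix.of ![u, w, crossProduct u w])ᵀ with hP
  have hQP : Q * P = Q' * P := by
    ext i j
    have e1 : ∀ (R : Matrix (Fin 3) (Fin 3) ℝ) (v : V3), (R.mulVec v) i = ∑ k, R i k * v k :=
      fun R v => rfl
    rw [Matrix.mul_apply, Matrix.mul_apply]
    fin_cases j
    · exact congrFun hu i
    · exact congrFun hw i
    · exact congrFun hc i
  have hdet : P.det ≠ 0 := by
    have h1 : P.det = crossProduct u w ⬝ᵥ crossProduct u w := by
      rw [hP, Matrix.det_transpose, Matrix.det_fin_three]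
      simp [dotProduct, Fin.sum_univ_three, cross_apply]
      ring
    rw [h1]
    intro h2
    exact huw (dotProduct_self_eq_zero.1 h2)
  have hU : IsUnit P.det := isUnit_iff_ne_zero.2 hdet
  calc Q = Q * P * P⁻¹ := by rw [Matrix.mul_assoc, Matrix.mul_nonsing_inv _ hU, Matrix.mul_one]
    _ = Q' * P * P⁻¹ := by rw [hQP]
    _ = Q' := by rw [Matrix.mul_assoc, Matrix.mul_nonsing_inv _ hU, Matrix.mul_one]

theorem FinG_finite (a b c a' b' c' : V3) (habc : crossProduct (b - a) (c - a) ≠ 0) :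
    Set.Finite {g : Iso | Orth g ∧ act g a = a' ∧ act g b = b' ∧ act g c = c'} := by
  refine Set.Finite.of_finite_image (f := fun g : Iso => g.1.det)
    ((Set.toFinite ({1, -1} : Set ℝ)).subset ?_) ?_
  · rintro _ ⟨g, hg, rfl⟩
    rcases FinG_det hg.1 with h | h
    · exact Or.inl h
    · exact Or.inr h
  · rintro g ⟨hg, h1, h2, h3⟩ g' ⟨hg', h1', h2', h3'⟩ hd
    have e : ∀ {k : Iso} {x y x' y' : V3}, act k x = x' → act k y = y' →
        k.1.mulVec (y - x) = y' - x' := by
      intro k x y x' y' hx hy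
      rw [← hx, ← hy, Matrix.mulVec_sub]
      unfold act
      abel
    have hQ : g.1 = g'.1 := FinG_inj hg hg' hd habc
      ((e h1 h2).trans (e h1' h2').symm) ((e h1 h3).trans (e h1' h3').symm)
    have hv : g.2 = g'.2 := by
      have h4 : act g a = act g' a := h1.trans h1'.symm
      unfold act at h4
      rw [hQ] at h4
      exact add_left_cancel h4
    exact Prod.ext hQ hv

theorem finite_iso (X Y : Finset V3) : Set.Finite {g : Iso | Orth g ∧ 1 ≤ rho (M g X Y)} := by
  classical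
  have hfin : Set.Finite (⋃ p ∈ ((X ×ˢ X ×ˢ X) ×ˢ (Y ×ˢ Y ×ˢ Y)).filter
      (fun p => crossProduct (p.1.2.1 - p.1.1) (p.1.2.2 - p.1.1) ≠ 0),
      {g : Iso | Orth g ∧ act g p.1.1 = p.2.1 ∧ act g p.1.2.1 = p.2.2.1 ∧
        act g p.1.2.2 = p.2.2.2}) := by
    refine Set.Finite.biUnion (Finset.finite_toSet _) fun p hp => ?_
    have hp2 := (Finset.mem_filter.1 (Finset.mem_coe.1 hp)).2
    exact FinG_finite _ _ _ _ _ _ hp2
  refine hfin.subset ?_
  rintro g ⟨hg, h1⟩
  obtain ⟨a, ha, b, hb, c, hc, habc⟩ := FinG_triple h1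
  have hM : ∀ x ∈ M g X Y, x ∈ X ∧ act g x ∈ Y := by
    intro x hx
    unfold M at hx
    exact Finset.mem_filter.1 hx
  rw [Set.mem_iUnion₂]
  refine ⟨((a, b, c), (act g a, act g b, act g c)), ?_, hg, rfl, rfl, rfl⟩
  rw [Finset.mem_filter]
  refine ⟨?_, habc⟩
  simp only [Finset.mem_product]
  exact ⟨⟨(hM a ha).1, (hM b hb).1, (hM c hc).1⟩, (hM a ha).2, (hM b hb).2, (hM c hc).2⟩

end Vale.Agent.P054.R
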