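import Vale.Agent.P054.R.PartT

/-! P054, block R, output: `RStmt` from `PlanarStmt` and `TwoStmt`. -/

set_option linter.all false
set_option autoImplicit false

namespace Vale.Agent.P054.R

open Finset Matrix

theorem choose_pow (c η : ℝ) (hη : 0 < η) (hc : 0 ≤ c) : ∃ K : ℕ, 1 ≤ K ∧ c * (K : ℝ) ^ (-η) ≤ 1 / 8 := by
  have h1 := ((tendsto_rpow_atTop hη).comp tendsto_natCast_atTop_atTop).eventually
    (Filter.eventually_ge_atTop (8 * c + 1))
  obtain ⟨K, hK1, hK2⟩ := (h1.and (Filter.eventually_ge_atTop 1)).exists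
  refine ⟨K, hK2, ?_⟩
  have hKpos : (0:ℝ) < K := by exact_mod_cast hK2
  have h2 : (8 * c + 1) ≤ (K : ℝ) ^ η := hK1
  rw [Real.rpow_neg hKpos.le, ← div_eq_mul_inv, div_le_iff₀ (by positivity)]
  linarith

theorem choose_B {ε : ℝ} (hε : 0 < ε) (hε1 : ε ≤ 1) : ∃ B : ℕ, 3 ≤ B ∧
    (8:ℝ) ^ (3 + ε / 2) * (500 * ((B:ℝ) + 1)) ^ (2 + ε / 2) * ((B:ℝ) + 1) ^ 2 *
      (4 / (B:ℝ) ^ 2) ^ (2 + ε) ≤ 1 / 4 := by
  have h1 := ((tendsto_rpow_atTop (show 0 < 3 * ε / 2 by positivity)).comp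
    tendsto_natCast_atTop_atTop).eventually
    (Filter.eventually_ge_atTop (4 * (8 ^ 4 * 1000 ^ 3 * 256 : ℝ)))
  obtain ⟨B, hB1, hB2⟩ := (h1.and (Filter.eventually_ge_atTop 3)).exists
  refine ⟨B, hB2, ?_⟩
  have hB1' : 4 * (8 ^ 4 * 1000 ^ 3 * 256 : ℝ) ≤ (B : ℝ) ^ (3 * ε / 2) := hB1
  have hB : (3:ℝ) ≤ B := by exact_mod_cast hB2
  have hBpos : (0:ℝ) < B := by linarith
  have e1 : (8:ℝ) ^ (3 + ε / 2) ≤ 8 ^ 4 := by
    calc (8:ℝ) ^ (3 + ε / 2) ≤ (8:ℝ) ^ (4:ℝ) :=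
          Real.rpow_le_rpow_of_exponent_le (by norm_num) (by linarith)
      _ = 8 ^ 4 := by norm_num
  have e2 : (500 * ((B:ℝ) + 1)) ^ (2 + ε / 2) ≤ 1000 ^ 3 * (B:ℝ) ^ (2 + ε / 2) := by
    calc (500 * ((B:ℝ) + 1)) ^ (2 + ε / 2) ≤ (1000 * (B:ℝ)) ^ (2 + ε / 2) :=
          Real.rpow_le_rpow (by positivity) (by linarith) (by positivity)
      _ = (1000:ℝ) ^ (2 + ε / 2) * (B:ℝ) ^ (2 + ε / 2) := Real.mul_rpow (by norm_num) hBpos.le
      _ ≤ _ := by
          apply mul_le_mul_of_nonneg_right _ (by positivity)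
          calc (1000:ℝ) ^ (2 + ε / 2) ≤ (1000:ℝ) ^ (3:ℝ) :=
                Real.rpow_le_rpow_of_exponent_le (by norm_num) (by linarith)
            _ = 1000 ^ 3 := by norm_num
  have e3 : ((B:ℝ) + 1) ^ 2 ≤ 4 * (B:ℝ) ^ 2 := by nlinarith
  have e4 : (4 / (B:ℝ) ^ 2) ^ (2 + ε) ≤ 64 * ((B:ℝ) ^ (4 + 2 * ε))⁻¹ := by
    rw [Real.div_rpow (by norm_num) (by positivity), div_eq_mul_inv]
    apply mul_le_mul
    · calc (4:ℝ) ^ (2 + ε) ≤ (4:ℝ) ^ (3:ℝ) :=
            Real.rpow_le_rpow_of_exponent_le (by norm_num) (by linarith)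
        _ = 64 := by norm_num
    · apply le_of_eq
      congr 1
      rw [← Real.rpow_natCast, ← Real.rpow_mul hBpos.le]
      congr 1
      push_cast
      ring
    · positivity
    · norm_num
  have e5 : (B:ℝ) ^ (2 + ε / 2) * (B:ℝ) ^ 2 * ((B:ℝ) ^ (4 + 2 * ε))⁻¹ = ((B:ℝ) ^ (3 * ε / 2))⁻¹ := by
    rw [← Real.rpow_natCast (B:ℝ) 2, ← Real.rpow_add hBpos, ← Real.rpow_neg hBpos.le,
      ← Real.rpow_add hBpos, ← Real.rpow_neg hBpos.le]
    congr 1
    push_cast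
    ring
  calc (8:ℝ) ^ (3 + ε / 2) * (500 * ((B:ℝ) + 1)) ^ (2 + ε / 2) * ((B:ℝ) + 1) ^ 2 *
      (4 / (B:ℝ) ^ 2) ^ (2 + ε)
      ≤ 8 ^ 4 * (1000 ^ 3 * (B:ℝ) ^ (2 + ε / 2)) * (4 * (B:ℝ) ^ 2) * (64 * ((B:ℝ) ^ (4 + 2 * ε))⁻¹) := by
        apply mul_le_mul _ e4 (by positivity) (by positivity)
        apply mul_le_mul _ e3 (by positivity) (by positivity)
        exact mul_le_mul e1 e2 (by positivity) (by positivity)
    _ = (8 ^ 4 * 1000 ^ 3 * 256) * ((B:ℝ) ^ (2 + ε / 2) * (B:ℝ) ^ 2 * ((B:ℝ) ^ (4 + 2 * ε))⁻¹) := by ring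
    _ = (8 ^ 4 * 1000 ^ 3 * 256) / (B:ℝ) ^ (3 * ε / 2) := by
        rw [e5]
        exact (div_eq_mul_inv _ _).symm
    _ ≤ 1 / 4 := by
        rw [div_le_iff₀ (by positivity)]
        linarith

theorem key (hP : PlanarStmt) (hT : TwoStmt) (ε : ℝ) (hε : 0 < ε) (hε1 : ε ≤ 1) :
    ∃ K1 : ℕ, 4 ≤ K1 ∧ ∃ C : ℝ, 0 < C ∧ ∀ (X Y : Finset V3) (G : Finset Iso), (∀ g ∈ G, Orth g) →
      Re (ε / 2) K1 G X Y ≤ C * ((X.card : ℝ) * Y.card) ^ (2 + ε) := by
  classical
  obtain ⟨K1a, hPa⟩ := hP ε hε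
  obtain ⟨B, hB3, hBc⟩ := choose_B hε hε1
  obtain ⟨V, hV⟩ : ∃ V : ℕ, V = 500 * (B + 1) := ⟨_, rfl⟩
  obtain ⟨K3, hK31, hK3⟩ := choose_pow (5 * (16 * (V:ℝ)) ^ (3 + ε / 2)) (ε / 2) (by positivity)
    (by positivity)
  obtain ⟨A, hA1, hA⟩ := choose_pow 5 (ε / 2) (by positivity) (by norm_num)
  obtain ⟨K2a, CT, hCT, hTa⟩ := hT (3 * ε / 4) (by positivity) K3
  obtain ⟨K1, hK1⟩ : ∃ K1 : ℕ, K1 = K1a + 4 := ⟨_, rfl⟩
  obtain ⟨K2, hK2⟩ : ∃ K2 : ℕ, K2 = 8 * V * K1 + 4 * V * (K2a + K1 + 3) + B + K1 := ⟨_, rfl⟩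
  obtain ⟨CP, hCP, hPb⟩ := hPa (A * K2)
  refine ⟨K1, by omega, ?_⟩
  obtain ⟨C', hC'⟩ : ∃ C' : ℝ, C' = (8 * (V:ℝ)) ^ (3 + ε / 2) * CT + (K2 : ℝ) ^ (3 + ε / 2) * 10 +
    (K2 : ℝ) ^ (3 + ε / 2) * CP := ⟨_, rfl⟩
  have hC'0 : 0 ≤ C' := by rw [hC']; positivity
  refine ⟨2 * C' + 1, by linarith, ?_⟩
  have main : ∀ n : ℕ, ∀ X Y : Finset V3, X.card * Y.card = n → ∀ G : Finset Iso, (∀ g ∈ G, Orth g) →
      Re (ε / 2) K1 G X Y ≤ (2 * C' + 1) * ((X.card : ℝ) * Y.card) ^ (2 + ε) := by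
    intro n
    induction n using Nat.strong_induction_on with
    | _ n ih =>
      intro X Y hn G hG
      refine (Re_le_full (by omega) X Y G hG).trans ?_
      set v : ℝ := (X.card : ℝ) * Y.card with hv
      set R := Re (ε / 2) K1 (GF X Y) X Y with hR
      have hv0 : 0 ≤ v := by positivity
      have hvv : v ^ 2 ≤ v ^ (2 + ε) := by
        have h1 : v = ((X.card * Y.card : ℕ) : ℝ) := by push_cast; rfl
        rcases Nat.eq_zero_or_pos (X.card * Y.card) with h0 | h0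
        · rw [h1, h0, Nat.cast_zero, Real.zero_rpow (by linarith)]
          norm_num
        · have h2 : (1:ℝ) ≤ v := by rw [h1]; exact_mod_cast h0
          rw [← Real.rpow_two]
          exact Real.rpow_le_rpow_of_exponent_le h2 (by linarith)
      -- the pieces of the sum
      set G0 := (GF X Y).filter (fun g => K1 ≤ rho (M g X Y)) with hG0
      have hG0O : ∀ g ∈ G0, Orth g := fun g hg => (mem_GF.1 (Finset.mem_filter.1 hg).1).1
      have hRG0 : R = ∑ g ∈ G0, ((rho (M g X Y) : ℕ) : ℝ) ^ (3 + ε / 2) := by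
        rw [hR, hG0, Finset.sum_filter]
        unfold Re
        apply Finset.sum_congr rfl
        intro g _
        unfold wt
        rfl
      set Gr := G0.filter (fun g => K2 ≤ rho (M g X Y)) with hGr
      set Gp := G0.filter (fun g => ¬ K2 ≤ rho (M g X Y)) with hGp
      have hs1 : R = ∑ g ∈ Gr, ((rho (M g X Y) : ℕ) : ℝ) ^ (3 + ε / 2) +
          ∑ g ∈ Gp, ((rho (M g X Y) : ℕ) : ℝ) ^ (3 + ε / 2) := by
        rw [hRG0, hGr, hGp, Finset.sum_filter_add_sum_filter_not]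
      have hpoor : ∑ g ∈ Gp, ((rho (M g X Y) : ℕ) : ℝ) ^ (3 + ε / 2) ≤
          (K2 : ℝ) ^ (3 + ε / 2) * (10 * v ^ 2) + (K2 : ℝ) ^ (3 + ε / 2) * (CP * v ^ (2 + ε)) +
          5 * (A : ℝ) ^ (-(ε / 2)) * R := by
        apply partP hε K1 K2 A (by omega) hA1 (by omega) CP hCP X Y
        · intro G' hG'O hG'
          apply hPb X Y G' hG'O
          intro g hg
          obtain ⟨h1, n', d', h2, h3, h4⟩ := hG' g hg
          exact ⟨by omega, n', d', h2, h3, h4⟩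
        · intro g hg
          rw [hGp, Finset.mem_filter, not_le] at hg
          exact ⟨hG0O g hg.1, (Finset.mem_filter.1 hg.1).2, hg.2.le⟩
      have hrich : ∑ g ∈ Gr, ((rho (M g X Y) : ℕ) : ℝ) ^ (3 + ε / 2) ≤
          1 / 4 * ((2 * C' + 1) * v ^ (2 + ε)) + ((8 * (V:ℝ)) ^ (3 + ε / 2) * (CT * v ^ (2 + ε)) +
          (16 * (V:ℝ)) ^ (3 + ε / 2) * (5 * (K3 : ℝ) ^ (-(ε / 2)) * R)) := by
        have hR0 : 0 ≤ R := Re_nonneg _ _ _ _ _
        rcases Gr.eq_empty_or_nonempty with hemp | ⟨g0, hg0⟩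
        · rw [hemp, Finset.sum_empty]
          positivity
        have hg0' := Finset.mem_filter.1 hg0
        have hBX : B ≤ X.card := by
          have h1 := (rho_le_card (M g0 X Y)).trans (M_card_le_X g0 X Y)
          omega
        have hBY : B ≤ Y.card := by
          have h1 := (rho_le_card (M g0 X Y)).trans (M_card_le_Y (hG0O g0 hg0'.1) X Y)
          omega
        obtain ⟨Xc, Yc, hXc, hYc, hnd⟩ := nd K1 B (by omega) X Y hBX hBY
        set Pn : Iso → Prop := fun g => ∃ Vis : Finset (ℕ × ℕ),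
          Vis ⊆ Finset.range (B + 1) ×ˢ Finset.range (B + 1) ∧ Vis.card ≤ 500 * (B + 1) ∧
          rho (M g X Y) ≤ 8 * ∑ v ∈ Vis, rK K1 (M g (Xc v.1) (Yc v.2)) with hPn
        rw [← Finset.sum_filter_add_sum_filter_not Gr Pn]
        apply add_le_add
        · have h1 := nd_sum (η := ε / 2) (ε := ε) (by positivity) hε.le K1 B (by omega) X Y Xc Yc hXc hYc
            (2 * C' + 1) (by linarith) (by
              intro i j G' hG'
              have h2 := hXc i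
              have h3 := hYc j
              have h4 : (Xc i).card * (Yc j).card < n := by
                have h5 : (B * (Xc i).card) * (B * (Yc j).card) ≤ (2 * X.card) * (2 * Y.card) :=
                  Nat.mul_le_mul h2 h3
                have h6 : (B * (Xc i).card) * (B * (Yc j).card) = (B * B) * ((Xc i).card * (Yc j).card) := by ring
                have h7 : (2 * X.card) * (2 * Y.card) = 4 * (X.card * Y.card) := by ring
                have h8 : 9 ≤ B * B := Nat.mul_le_mul hB3 hB3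
                have h9 : 9 * ((Xc i).card * (Yc j).card) ≤ (B * B) * ((Xc i).card * (Yc j).card) :=
                  Nat.mul_le_mul_right _ h8
                have h10 : 0 < X.card * Y.card := Nat.mul_pos (by omega) (by omega)
                rw [← hn]
                omega
              exact ih _ h4 (Xc i) (Yc j) rfl G' hG')
            (Gr.filter Pn) (fun g hg => hG0O g (Finset.mem_filter.1 (Finset.mem_filter.1 hg).1).1)
            (fun g hg => (Finset.mem_filter.1 hg).2)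
          refine h1.trans ?_
          have h2 : (4 * v / (B:ℝ) ^ 2) ^ (2 + ε) = (4 / (B:ℝ) ^ 2) ^ (2 + ε) * v ^ (2 + ε) := by
            rw [← Real.mul_rpow (by positivity) hv0]
            congr 1
            ring
          rw [h2]
          have h3 : (0:ℝ) ≤ (2 * C' + 1) * v ^ (2 + ε) := by positivity
          calc _ = ((8:ℝ) ^ (3 + ε / 2) * (500 * ((B:ℝ) + 1)) ^ (2 + ε / 2) * ((B:ℝ) + 1) ^ 2 *
                (4 / (B:ℝ) ^ 2) ^ (2 + ε)) * ((2 * C' + 1) * v ^ (2 + ε)) := by ring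
            _ ≤ _ := mul_le_mul_of_nonneg_right hBc h3
        · apply partT hε K1 V K2a K3 K2 (by omega) (by omega) hK31 CT hCT X Y (hTa X Y) (by omega)
          · intro g hg
            have hg' := Finset.mem_filter.1 (Finset.mem_filter.1 hg).1
            exact ⟨hG0O g hg'.1, hg'.2⟩
          · intro g hg
            have hg' := Finset.mem_filter.1 hg
            have hg'' := Finset.mem_filter.1 hg'.1
            have h2 : 8 * (500 * (B + 1)) * K1 ≤ rho (M g X Y) := by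
              rw [← hV]
              have h3 := hg''.2
              omega
            rcases hnd g (hG0O g hg''.1) h2 (by have h3 := hg''.2; omega) with h3 | h3
            · exact absurd h3 hg'.2
            · rw [hV]
              exact h3
      have hR0 : 0 ≤ R := Re_nonneg _ _ _ _ _
      have hvr0 : 0 ≤ v ^ (2 + ε) := by positivity
      have h16 : (16 * (V:ℝ)) ^ (3 + ε / 2) * (5 * (K3 : ℝ) ^ (-(ε / 2)) * R) ≤ 1 / 8 * R := by
        calc _ = (5 * (16 * (V:ℝ)) ^ (3 + ε / 2) * (K3 : ℝ) ^ (-(ε / 2))) * R := by ring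
          _ ≤ _ := mul_le_mul_of_nonneg_right hK3 hR0
      have h5A : 5 * (A : ℝ) ^ (-(ε / 2)) * R ≤ 1 / 8 * R := mul_le_mul_of_nonneg_right hA hR0
      have h10 : (K2 : ℝ) ^ (3 + ε / 2) * (10 * v ^ 2) ≤ (K2 : ℝ) ^ (3 + ε / 2) * (10 * v ^ (2 + ε)) := by
        apply mul_le_mul_of_nonneg_left _ (by positivity)
        linarith
      have htot : R ≤ 1 / 4 * ((2 * C' + 1) * v ^ (2 + ε)) + C' * v ^ (2 + ε) + 1 / 4 * R := by
        have h11 : C' * v ^ (2 + ε) = (8 * (V:ℝ)) ^ (3 + ε / 2) * (CT * v ^ (2 + ε)) +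
            (K2 : ℝ) ^ (3 + ε / 2) * (10 * v ^ (2 + ε)) + (K2 : ℝ) ^ (3 + ε / 2) * (CP * v ^ (2 + ε)) := by
          rw [hC']; ring
        rw [h11]
        linarith
      nlinarith
  intro X Y G hG
  exact main _ X Y rfl G hG

theorem rstmt (hP : PlanarStmt) (hT : TwoStmt) : RStmt := by
  intro ε hε
  obtain ⟨K1, hK1, C, hC, h⟩ := key hP hT (min ε 1) (lt_min hε one_pos) (min_le_right _ _)
  refine ⟨K1, C, hC, ?_⟩
  intro X Y G hG
  have h1 : Rf K1 G X Y ≤ Re (min ε 1 / 2) K1 G X Y := by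
    unfold Rf Re
    apply Finset.sum_le_sum
    intro g _
    unfold wt
    split_ifs with h2
    · have h3 : (1:ℝ) ≤ ((rho (M g X Y) : ℕ) : ℝ) := by
        have : 1 ≤ rho (M g X Y) := by omega
        exact_mod_cast this
      have h4 : (0:ℝ) < min ε 1 := lt_min hε one_pos
      calc ((rho (M g X Y) : ℕ) : ℝ) ^ 3 = ((rho (M g X Y) : ℕ) : ℝ) ^ (3:ℝ) := by norm_num
        _ ≤ _ := Real.rpow_le_rpow_of_exponent_le h3 (by linarith)
    · exact le_rfl
  refine h1.trans ((h X Y G hG).trans ?_)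
  apply mul_le_mul_of_nonneg_left _ hC.le
  have h4 : (0:ℝ) < min ε 1 := lt_min hε one_pos
  have h5 : (X.card : ℝ) * Y.card = ((X.card * Y.card : ℕ) : ℝ) := by push_cast; rfl
  rcases Nat.eq_zero_or_pos (X.card * Y.card) with h0 | h0
  · rw [h5, h0, Nat.cast_zero, Real.zero_rpow (by linarith), Real.zero_rpow (by linarith)]
  · apply Real.rpow_le_rpow_of_exponent_le
    · rw [h5]; exact_mod_cast h0
    · have := min_le_left ε 1
      linarith

end Vale.Agent.P054.R
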