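import Vale.Agent.P054.R.Basic
import Vale.Agent.P054.Y.ZOrder

/-! P054, block R, ND: partition into pieces; either the non dominated pieces carry a rich isometry
or it has two rich lines. -/

set_option linter.all false
set_option autoImplicit false

namespace Vale.Agent.P054.R

open Finset Matrix

/-- truncated cube of `rho` -/
noncomputable def rK (K1 : ℕ) (S : Finset V3) : ℕ := if K1 ≤ rho S then rho S else 0

theorem on_mono {S T : Finset V3} (h : S ⊆ T) (x b : V3) : on S x b ≤ on T x b := by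
  classical
  unfold on
  exact Finset.card_le_card (Finset.filter_subset_filter _ h)

open scoped Classical in
theorem nd (K1 B : ℕ) (hB : 1 ≤ B) (X Y : Finset V3) (hX : B ≤ X.card) (hY : B ≤ Y.card) :
    ∃ Xc Yc : ℕ → Finset V3, (∀ i, B * (Xc i).card ≤ 2 * X.card) ∧
      (∀ j, B * (Yc j).card ≤ 2 * Y.card) ∧
      ∀ g : Iso, Orth g → 8 * (500 * (B + 1)) * K1 ≤ rho (M g X Y) → 1 ≤ rho (M g X Y) →
        (∃ Vis : Finset (ℕ × ℕ), Vis ⊆ Finset.range (B + 1) ×ˢ Finset.range (B + 1) ∧
          Vis.card ≤ 500 * (B + 1) ∧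
          rho (M g X Y) ≤ 8 * ∑ v ∈ Vis, rK K1 (M g (Xc v.1) (Yc v.2))) ∨
        ∃ x1 b1 x2 b2 : V3, b1 ≠ 0 ∧ b2 ≠ 0 ∧ DiffL x1 b1 x2 b2 ∧
          rho (M g X Y) ≤ 4 * (500 * (B + 1)) * on (M g X Y) x1 b1 ∧
          rho (M g X Y) ≤ 4 * (500 * (B + 1)) * on (M g X Y) x2 b2 := by
  have hcard : ∀ (Z : Finset V3), B ≤ Z.card →
      Z.card / (Z.card / B + 1) ≤ B ∧ B * (Z.card / B + 1) ≤ 2 * Z.card := by
    intro Z hZ
    have h1 : 1 ≤ Z.card / B := (Nat.one_le_div_iff (by omega)).2 hZ
    have h2 : B * (Z.card / B) ≤ Z.card := Nat.mul_div_le _ _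
    constructor
    · apply Nat.div_le_of_le_mul
      have h3 := Nat.lt_mul_div_succ Z.card (show 0 < B by omega)
      calc Z.card ≤ B * (Z.card / B + 1) := h3.le
        _ = (Z.card / B + 1) * B := by ring
    · nlinarith
  obtain ⟨lX, lY, hlX, hlY, hfX, hfY, hcross⟩ := Vale.Agent.P054.Y.ZO.zorder X Y (X.card / B + 1) (Y.card / B + 1)
    (Nat.succ_pos _) (Nat.succ_pos _)
  refine ⟨fun i => X.filter (fun x => lX x = i), fun j => Y.filter (fun y => lY y = j), ?_, ?_, ?_⟩
  · intro i
    calc _ ≤ B * (X.card / B + 1) := Nat.mul_le_mul_left _ (hfX i)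
      _ ≤ _ := (hcard X hX).2
  · intro j
    calc _ ≤ B * (Y.card / B + 1) := Nat.mul_le_mul_left _ (hfY j)
      _ ≤ _ := (hcard Y hY).2
  intro g hg hK hρ1
  set V := 500 * (B + 1) with hV
  set ρ := rho (M g X Y) with hρ
  by_cases htwo : ∃ x1 b1 x2 b2 : V3, b1 ≠ 0 ∧ b2 ≠ 0 ∧ DiffL x1 b1 x2 b2 ∧
          ρ ≤ 4 * V * on (M g X Y) x1 b1 ∧ ρ ≤ 4 * V * on (M g X Y) x2 b2
  · exact Or.inr htwo
  left
  obtain ⟨x0, b0, hb0, hoff⟩ := rho_spec (M g X Y)
  rw [← hρ] at hoff
  set N := (M g X Y).filter (fun a => ¬ OnL x0 b0 a) with hN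
  have hNc : N.card = ρ := hoff
  set Vis := ((M g X Y).image (fun x => (x, act g x))).image (fun p => (lX p.1, lY p.2)) with hVis
  have hVc : Vis.card ≤ V := by
    have h1 := hcross ((M g X Y).image (fun x => (x, act g x))) (by
      intro p hp
      rw [Finset.mem_image] at hp
      obtain ⟨x, hx, rfl⟩ := hp
      unfold M at hx
      rw [Finset.mem_filter] at hx
      exact hx) (by
      intro p hp q hq
      rw [Finset.mem_image] at hp hq
      obtain ⟨x, hx, rfl⟩ := hp
      obtain ⟨y, hy, rfl⟩ := hq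
      exact (act_dist hg x y).symm)
    have h2 := (hcard X hX).1
    have h3 := (hcard Y hY).1
    calc Vis.card ≤ _ := h1
      _ ≤ V := by rw [hV]; omega
  have hVsub : Vis ⊆ Finset.range (B + 1) ×ˢ Finset.range (B + 1) := by
    intro v hv
    rw [hVis, Finset.mem_image] at hv
    obtain ⟨p, hp, rfl⟩ := hv
    rw [Finset.mem_image] at hp
    obtain ⟨x, hx, rfl⟩ := hp
    unfold M at hx
    rw [Finset.mem_filter] at hx
    rw [Finset.mem_product, Finset.mem_range, Finset.mem_range]
    have h1 := hlX x hx.1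
    have h2 := hlY _ hx.2
    have h3 := (hcard X hX).1
    have h4 := (hcard Y hY).1
    simp only
    omega
  set P : ℕ × ℕ → Finset V3 := fun v => N.filter (fun x => (lX x, lY (act g x)) = v) with hP
  have hsum : ρ = ∑ v ∈ Vis, (P v).card := by
    rw [← hNc]
    apply Finset.card_eq_sum_card_fiberwise
    intro x hx
    have hx' : x ∈ N := hx
    rw [hN, Finset.mem_filter] at hx'
    rw [Finset.mem_coe, hVis, Finset.mem_image]
    exact ⟨(x, act g x), Finset.mem_image_of_mem _ hx'.1, rfl⟩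
  have hPsub : ∀ v, P v ⊆ M g (X.filter (fun x => lX x = v.1)) (Y.filter (fun y => lY y = v.2)) := by
    intro v x hx
    rw [hP, Finset.mem_filter, hN, Finset.mem_filter] at hx
    obtain ⟨⟨h1, -⟩, h2⟩ := hx
    unfold M at h1 ⊢
    rw [Finset.mem_filter] at h1 ⊢
    rw [Finset.mem_filter, Finset.mem_filter]
    rw [← h2]
    exact ⟨⟨h1.1, rfl⟩, h1.2, rfl⟩
  have hpiece : ∀ v ∈ Vis, 2 * V * (P v).card ≤ 2 * V * (2 * K1 + 2 * rK K1 (M g (X.filter (fun x => lX x = v.1))
      (Y.filter (fun y => lY y = v.2)))) + ρ := by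
    intro v hv
    have hmono := rho_mono (hPsub v)
    set ρ' := rho (M g (X.filter (fun x => lX x = v.1)) (Y.filter (fun y => lY y = v.2))) with hρ'
    by_cases hd : (P v).card ≤ 2 * rho (P v)
    · have h1 : (P v).card ≤ 2 * K1 + 2 * rK K1 (M g (X.filter (fun x => lX x = v.1))
          (Y.filter (fun y => lY y = v.2))) := by
        unfold rK
        rw [← hρ']
        split_ifs with h2
        · omega
        · omega
      calc _ ≤ _ := Nat.mul_le_mul_left _ h1
        _ ≤ _ := Nat.le_add_right _ _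
    · rw [not_le] at hd
      obtain ⟨x, b, hb, hoff'⟩ := rho_spec (P v)
      have h1 := off_add_on (P v) x b
      have h2 : (P v).card < 2 * on (P v) x b := by omega
      have h3 : 4 * V * on (P v) x b < ρ := by
        by_contra hcon
        rw [not_lt] at hcon
        apply htwo
        have h4 : on (P v) x b ≤ on (M g X Y) x b :=
          on_mono ((Finset.filter_subset _ _).trans (Finset.filter_subset _ _)) x b
        refine ⟨x0, b0, x, b, hb0, hb, ?_, ?_, ?_⟩
        · intro heq
          have h5 : 0 < on (P v) x b := by omega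
          unfold on at h5
          obtain ⟨a, ha⟩ := Finset.card_pos.1 h5
          rw [Finset.mem_filter] at ha
          have h6 := ha.1
          rw [hP, Finset.mem_filter, hN, Finset.mem_filter] at h6
          exact h6.1.2 ((heq a).2 ha.2)
        · have h5 := off_add_on (M g X Y) x0 b0
          have h6 := off_add_on (M g X Y) x b
          have h7 := rho_le_off (M g X Y) x b hb
          have h8 : on (M g X Y) x b ≤ on (M g X Y) x0 b0 := by omega
          calc ρ ≤ _ := hcon
            _ ≤ 4 * V * on (M g X Y) x0 b0 := Nat.mul_le_mul_left _ (h4.trans h8)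
        · calc ρ ≤ _ := hcon
            _ ≤ 4 * V * on (M g X Y) x b := Nat.mul_le_mul_left _ h4
      have h5 : 2 * V * (P v).card ≤ 4 * V * on (P v) x b := by
        calc 2 * V * (P v).card ≤ 2 * V * (2 * on (P v) x b) := Nat.mul_le_mul_left _ h2.le
          _ = _ := by ring
      exact h5.trans (h3.le.trans (Nat.le_add_left _ _))
  have hVpos : 0 < V := by rw [hV]; omega
  set Sg := ∑ v ∈ Vis, rK K1 (M g (X.filter (fun x => lX x = v.1)) (Y.filter (fun y => lY y = v.2))) with hSg
  have htot : 2 * V * ρ ≤ Vis.card * (4 * V * K1 + ρ) + 4 * V * Sg := by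
    calc 2 * V * ρ = ∑ v ∈ Vis, 2 * V * (P v).card := by
          conv_lhs => rw [hsum]
          rw [Finset.mul_sum]
      _ ≤ ∑ v ∈ Vis, (2 * V * (2 * K1 + 2 * rK K1 (M g (X.filter (fun x => lX x = v.1))
            (Y.filter (fun y => lY y = v.2)))) + ρ) := Finset.sum_le_sum hpiece
      _ = ∑ v ∈ Vis, ((4 * V * K1 + ρ) + 4 * V * rK K1 (M g (X.filter (fun x => lX x = v.1))
            (Y.filter (fun y => lY y = v.2)))) := by
          apply Finset.sum_congr rfl
          intro v _
          ring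
      _ = _ := by
          rw [Finset.sum_add_distrib, Finset.sum_const, smul_eq_mul, ← Finset.mul_sum]
  have h8 : ρ ≤ 8 * Sg := by
    have h1 : Vis.card * (4 * V * K1 + ρ) ≤ V * (4 * V * K1 + ρ) := Nat.mul_le_mul_right _ hVc
    have h2 : V * (2 * ρ) ≤ V * (4 * V * K1 + ρ + 4 * Sg) := by
      calc V * (2 * ρ) = 2 * V * ρ := by ring
        _ ≤ V * (4 * V * K1 + ρ) + 4 * V * Sg := htot.trans (Nat.add_le_add_right h1 _)
        _ = _ := by ring
    have h3 := Nat.le_of_mul_le_mul_left h2 hVpos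
    have h4 : 8 * V * K1 = 2 * (4 * V * K1) := by ring
    omega
  exact ⟨Vis, hVsub, hVc, h8⟩

end Vale.Agent.P054.R
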