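import Vale.Agent.P054.R.Parts

/-! P054, block R: isometries with two rich lines, and poor isometries. -/

set_option linter.all false
set_option autoImplicit false

namespace Vale.Agent.P054.R

open Finset Matrix

theorem partT {ε : ℝ} (hε : 0 < ε) (K1 V K2a K3 K2 : ℕ) (hK1 : 1 ≤ K1) (hV : 1 ≤ V) (hK3 : 1 ≤ K3)
    (CT : ℝ) (hCT : 0 < CT) (X Y : Finset V3)
    (hT : ∀ (G : Finset Iso), (∀ g ∈ G, Orth g) →
      ∀ (k : Iso → ℕ) (x1 b1 x2 b2 : Iso → V3),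
      (∀ g ∈ G, K2a ≤ k g ∧ b1 g ≠ 0 ∧ b2 g ≠ 0 ∧ DiffL (x1 g) (b1 g) (x2 g) (b2 g) ∧
        k g ≤ on (M g X Y) (x1 g) (b1 g) ∧ k g ≤ on (M g X Y) (x2 g) (b2 g) ∧
        ∀ (n : V3) (d : ℝ), n ≠ 0 → LinP (x1 g) (b1 g) n d → LinP (x2 g) (b2 g) n d →
          rho (M (prt g n d) X Y) ≤ K3 * k g) →
      ∑ g ∈ G, ((k g : ℕ) : ℝ) ^ 3 ≤ CT * ((X.card : ℝ) * Y.card) ^ (2 + 3 * ε / 4))
    (hK2 : 4 * V * (K2a + K1 + 3) ≤ K2)
    (G : Finset Iso) (hG : ∀ g ∈ G, Orth g ∧ K2 ≤ rho (M g X Y))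
    (h2 : ∀ g ∈ G, ∃ x1 b1 x2 b2 : V3, b1 ≠ 0 ∧ b2 ≠ 0 ∧ DiffL x1 b1 x2 b2 ∧
      rho (M g X Y) ≤ 4 * V * on (M g X Y) x1 b1 ∧ rho (M g X Y) ≤ 4 * V * on (M g X Y) x2 b2) :
    ∑ g ∈ G, ((rho (M g X Y) : ℕ) : ℝ) ^ (3 + ε / 2) ≤
      (8 * (V:ℝ)) ^ (3 + ε / 2) * (CT * ((X.card : ℝ) * Y.card) ^ (2 + ε)) +
      (16 * (V:ℝ)) ^ (3 + ε / 2) * (5 * (K3 : ℝ) ^ (-(ε / 2)) * Re (ε / 2) K1 (GF X Y) X Y) := by
  classical
  choose! x1 b1 x2 b2 hb1 hb2 hne hr1 hr2 using h2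
  set k : Iso → ℕ := fun g => rho (M g X Y) / (4 * V) with hk
  have hkK : ∀ g ∈ G, K2a + K1 + 3 ≤ k g := by
    intro g hg
    have h3 := (hG g hg).2
    show K2a + K1 + 3 ≤ rho (M g X Y) / (4 * V)
    rw [Nat.le_div_iff_mul_le (by omega)]
    calc (K2a + K1 + 3) * (4 * V) = 4 * V * (K2a + K1 + 3) := by ring
      _ ≤ K2 := hK2
      _ ≤ _ := h3
  have hk1 : ∀ g ∈ G, k g ≤ on (M g X Y) (x1 g) (b1 g) := by
    intro g hg
    exact Nat.div_le_of_le_mul (hr1 g hg)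
  have hk2 : ∀ g ∈ G, k g ≤ on (M g X Y) (x2 g) (b2 g) := by
    intro g hg
    exact Nat.div_le_of_le_mul (hr2 g hg)
  have hρk : ∀ g ∈ G, rho (M g X Y) ≤ 8 * V * k g ∧ rho (M g X Y) ≤ 16 * V * (k g - 1) := by
    intro g hg
    have h3 := hkK g hg
    have h4 : rho (M g X Y) < 4 * V * (k g + 1) := Nat.lt_mul_div_succ _ (by omega)
    constructor
    · calc rho (M g X Y) ≤ 4 * V * (k g + 1) := h4.le
        _ ≤ 4 * V * (2 * k g) := Nat.mul_le_mul_left _ (by omega)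
        _ = _ := by ring
    · calc rho (M g X Y) ≤ 4 * V * (k g + 1) := h4.le
        _ ≤ 4 * V * (4 * (k g - 1)) := Nat.mul_le_mul_left _ (by omega)
        _ = _ := by ring
  set Ga := G.filter (fun g => ∃ (n : V3) (d : ℝ), n ≠ 0 ∧ LinP (x1 g) (b1 g) n d ∧
    LinP (x2 g) (b2 g) n d ∧ K3 * k g < rho (M (prt g n d) X Y)) with hGa
  set Gc := G.filter (fun g => ¬ ∃ (n : V3) (d : ℝ), n ≠ 0 ∧ LinP (x1 g) (b1 g) n d ∧
    LinP (x2 g) (b2 g) n d ∧ K3 * k g < rho (M (prt g n d) X Y)) with hGc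
  have hsplit : ∑ g ∈ G, ((rho (M g X Y) : ℕ) : ℝ) ^ (3 + ε / 2) =
      ∑ g ∈ Gc, ((rho (M g X Y) : ℕ) : ℝ) ^ (3 + ε / 2) +
      ∑ g ∈ Ga, ((rho (M g X Y) : ℕ) : ℝ) ^ (3 + ε / 2) := by
    rw [hGa, hGc, Finset.sum_filter_not_add_sum_filter]
  rw [hsplit]
  apply add_le_add
  · -- comparable
    have h3 := hT Gc (fun g hg => (hG g (Finset.mem_filter.1 hg).1).1) k x1 b1 x2 b2 (by
      intro g hg
      rw [hGc, Finset.mem_filter] at hg
      obtain ⟨hg, hn⟩ := hg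
      refine ⟨by have := hkK g hg; omega, hb1 g hg, hb2 g hg, hne g hg, hk1 g hg, hk2 g hg, ?_⟩
      intro n d hn0 hl1 hl2
      by_contra hcon
      rw [not_le] at hcon
      exact hn ⟨n, d, hn0, hl1, hl2, hcon⟩)
    have hpt : ∀ g ∈ Gc, ((rho (M g X Y) : ℕ) : ℝ) ^ (3 + ε / 2) ≤
        (8 * (V:ℝ)) ^ (3 + ε / 2) * (((k g : ℕ) : ℝ) ^ 3 * ((X.card : ℝ) * Y.card) ^ (ε / 4)) := by
      intro g hg
      have hgG := (Finset.mem_filter.1 hg).1
      have h4 : ((rho (M g X Y) : ℕ) : ℝ) ≤ 8 * V * k g := by exact_mod_cast (hρk g hgG).1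
      have h5 : ((k g : ℕ) : ℝ) ^ (ε / 2) ≤ ((X.card : ℝ) * Y.card) ^ (ε / 4) := by
        have h6 : k g ≤ (M g X Y).card := (Nat.div_le_self _ _).trans (rho_le_card _)
        have h7 : ((k g : ℕ) : ℝ) ≤ X.card := by exact_mod_cast h6.trans (M_card_le_X g X Y)
        have h8 : ((k g : ℕ) : ℝ) ≤ Y.card := by
          exact_mod_cast h6.trans (M_card_le_Y (hG g hgG).1 X Y)
        calc ((k g : ℕ) : ℝ) ^ (ε / 2) = (((k g : ℕ) : ℝ) ^ (2:ℝ)) ^ (ε / 4) := by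
              rw [← Real.rpow_mul (Nat.cast_nonneg _)]
              congr 1
              ring
          _ ≤ ((X.card : ℝ) * Y.card) ^ (ε / 4) := by
              apply Real.rpow_le_rpow (by positivity) _ (by positivity)
              rw [Real.rpow_two, sq]
              exact mul_le_mul h7 h8 (Nat.cast_nonneg _) (Nat.cast_nonneg _)
      calc ((rho (M g X Y) : ℕ) : ℝ) ^ (3 + ε / 2) ≤ (8 * V * (k g : ℝ)) ^ (3 + ε / 2) :=
            Real.rpow_le_rpow (Nat.cast_nonneg _) h4 (by positivity)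
        _ = (8 * (V:ℝ)) ^ (3 + ε / 2) * ((k g : ℕ) : ℝ) ^ (3 + ε / 2) :=
            Real.mul_rpow (by positivity) (Nat.cast_nonneg _)
        _ = (8 * (V:ℝ)) ^ (3 + ε / 2) * (((k g : ℕ) : ℝ) ^ 3 * ((k g : ℕ) : ℝ) ^ (ε / 2)) := by
            rw [Real.rpow_add_of_nonneg (Nat.cast_nonneg _) (by norm_num) (by positivity)]
            norm_num
        _ ≤ _ := by
            apply mul_le_mul_of_nonneg_left _ (by positivity)
            exact mul_le_mul_of_nonneg_left h5 (by positivity)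
    calc ∑ g ∈ Gc, ((rho (M g X Y) : ℕ) : ℝ) ^ (3 + ε / 2)
        ≤ ∑ g ∈ Gc, (8 * (V:ℝ)) ^ (3 + ε / 2) *
            (((k g : ℕ) : ℝ) ^ 3 * ((X.card : ℝ) * Y.card) ^ (ε / 4)) := Finset.sum_le_sum hpt
      _ = (8 * (V:ℝ)) ^ (3 + ε / 2) *
            ((∑ g ∈ Gc, ((k g : ℕ) : ℝ) ^ 3) * ((X.card : ℝ) * Y.card) ^ (ε / 4)) := by
          rw [← Finset.mul_sum, Finset.sum_mul]
      _ ≤ (8 * (V:ℝ)) ^ (3 + ε / 2) *
            ((CT * ((X.card : ℝ) * Y.card) ^ (2 + 3 * ε / 4)) * ((X.card : ℝ) * Y.card) ^ (ε / 4)) := by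
          apply mul_le_mul_of_nonneg_left _ (by positivity)
          exact mul_le_mul_of_nonneg_right h3 (by positivity)
      _ = _ := by
          rw [mul_assoc CT, ← Real.rpow_add_of_nonneg (by positivity) (by positivity) (by positivity)]
          congr 3
          ring
  · -- absorbed
    have hch : ∀ g ∈ Ga, ∃ (n : V3) (d : ℝ), n ≠ 0 ∧ LinP (x1 g) (b1 g) n d ∧
        LinP (x2 g) (b2 g) n d ∧ K3 * k g < rho (M (prt g n d) X Y) := by
      intro g hg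
      exact (Finset.mem_filter.1 hg).2
    choose! n d hn hl1 hl2 hlt using hch
    have h3 := absorb_sum (η := ε / 2) (A := (K3 : ℝ)) (by positivity) (by exact_mod_cast hK3) K1 hK1
      X Y Ga n d (fun g => k g - 1) (by
        intro g hg
        have hgG := (Finset.mem_filter.1 hg).1
        have h4 := hkK g hgG
        have h5 := hlt g hg
        refine ⟨(hG g hgG).1, hn g hg, by show 2 ≤ k g - 1; omega, ?_, ?_, ?_⟩
        · have h6 : K3 * (k g - 1) ≤ rho (M (prt g (n g) (d g)) X Y) :=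
            (Nat.mul_le_mul_left _ (Nat.sub_le _ _)).trans h5.le
          exact_mod_cast h6
        · have h7 : k g ≤ K3 * k g := Nat.le_mul_of_pos_left _ (by omega)
          omega
        · intro x b hb
          exact two_off (hb1 g hgG) (hb2 g hgG) (hne g hgG) (hl1 g hg) (hl2 g hg) (hk1 g hgG)
            (hk2 g hgG) x b hb)
    calc ∑ g ∈ Ga, ((rho (M g X Y) : ℕ) : ℝ) ^ (3 + ε / 2)
        ≤ ∑ g ∈ Ga, (16 * (V:ℝ)) ^ (3 + ε / 2) * (((k g - 1 : ℕ) : ℝ)) ^ (3 + ε / 2) := by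
          apply Finset.sum_le_sum
          intro g hg
          have hgG := (Finset.mem_filter.1 hg).1
          rw [← Real.mul_rpow (by positivity) (Nat.cast_nonneg _)]
          apply Real.rpow_le_rpow (Nat.cast_nonneg _) _ (by positivity)
          exact_mod_cast (hρk g hgG).2
      _ = (16 * (V:ℝ)) ^ (3 + ε / 2) * ∑ g ∈ Ga, (((k g - 1 : ℕ) : ℝ)) ^ (3 + ε / 2) := by
          rw [Finset.mul_sum]
      _ ≤ _ := mul_le_mul_of_nonneg_left h3 (by positivity)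

theorem partP {ε : ℝ} (hε : 0 < ε) (K1 K2 A : ℕ) (hK1 : 4 ≤ K1) (hA : 1 ≤ A) (hK12 : K1 ≤ K2)
    (CP : ℝ) (hCP : 0 < CP) (X Y : Finset V3)
    (hP : ∀ (G : Finset Iso), (∀ g ∈ G, Orth g) →
      (∀ g ∈ G, K1 ≤ rho (M g X Y) ∧ ∃ (n : V3) (d : ℝ), n ≠ 0 ∧ (∀ a ∈ M g X Y, OnP n d a) ∧
        rho (M (prt g n d) X Y) ≤ A * K2) →
      (G.card : ℝ) ≤ CP * ((X.card : ℝ) * Y.card) ^ (2 + ε))
    (G : Finset Iso) (hG : ∀ g ∈ G, Orth g ∧ K1 ≤ rho (M g X Y) ∧ rho (M g X Y) ≤ K2) :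
    ∑ g ∈ G, ((rho (M g X Y) : ℕ) : ℝ) ^ (3 + ε / 2) ≤
      (K2 : ℝ) ^ (3 + ε / 2) * (10 * ((X.card : ℝ) * Y.card) ^ 2) +
      (K2 : ℝ) ^ (3 + ε / 2) * (CP * ((X.card : ℝ) * Y.card) ^ (2 + ε)) +
      5 * (A : ℝ) ^ (-(ε / 2)) * Re (ε / 2) K1 (GF X Y) X Y := by
  classical
  have hbound : ∀ G' : Finset Iso, (∀ g ∈ G', rho (M g X Y) ≤ K2) →
      ∑ g ∈ G', ((rho (M g X Y) : ℕ) : ℝ) ^ (3 + ε / 2) ≤ (K2 : ℝ) ^ (3 + ε / 2) * G'.card := by
    intro G' h'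
    calc _ ≤ ∑ g ∈ G', (K2 : ℝ) ^ (3 + ε / 2) := by
          apply Finset.sum_le_sum
          intro g hg
          exact Real.rpow_le_rpow (Nat.cast_nonneg _) (by exact_mod_cast h' g hg) (by positivity)
      _ = _ := by rw [Finset.sum_const, nsmul_eq_mul, mul_comm]
  set Pl : Iso → Prop := fun g => ∃ (n : V3) (d : ℝ), n ≠ 0 ∧ ∀ a ∈ M g X Y, OnP n d a with hPl
  set Gs := G.filter (fun g => ¬ Pl g) with hGs
  set Gp := G.filter (fun g => Pl g) with hGp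
  have hch : ∀ g ∈ Gp, ∃ (n : V3) (d : ℝ), n ≠ 0 ∧ ∀ a ∈ M g X Y, OnP n d a := by
    intro g hg
    exact (Finset.mem_filter.1 hg).2
  choose! n d hn hpl using hch
  set Ge := Gp.filter (fun g => rho (M (prt g (n g) (d g)) X Y) ≤ A * K2) with hGe
  set Ga := Gp.filter (fun g => ¬ rho (M (prt g (n g) (d g)) X Y) ≤ A * K2) with hGa
  have hsplit : ∑ g ∈ G, ((rho (M g X Y) : ℕ) : ℝ) ^ (3 + ε / 2) =
      ∑ g ∈ Gs, ((rho (M g X Y) : ℕ) : ℝ) ^ (3 + ε / 2) +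
      ∑ g ∈ Ge, ((rho (M g X Y) : ℕ) : ℝ) ^ (3 + ε / 2) +
      ∑ g ∈ Ga, ((rho (M g X Y) : ℕ) : ℝ) ^ (3 + ε / 2) := by
    rw [add_assoc, hGe, hGa, Finset.sum_filter_add_sum_filter_not, hGs, hGp,
      Finset.sum_filter_not_add_sum_filter]
  rw [hsplit]
  apply add_le_add
  · apply add_le_add
    · refine (hbound Gs (fun g hg => (hG g (Finset.mem_filter.1 hg).1).2.2)).trans ?_
      apply mul_le_mul_of_nonneg_left _ (by positivity)
      apply span X Y Gs (fun g hg => (hG g (Finset.mem_filter.1 hg).1).1)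
      intro g hg
      rw [hGs, Finset.mem_filter] at hg
      refine ⟨by have := (hG g hg.1).2.1; omega, ?_⟩
      intro n' d' hn'
      by_contra hcon
      apply hg.2
      refine ⟨n', d', hn', ?_⟩
      intro a ha
      by_contra hcon2
      exact hcon ⟨a, ha, hcon2⟩
    · refine (hbound Ge (fun g hg => (hG g (Finset.mem_filter.1 (Finset.mem_filter.1 hg).1).1).2.2)).trans ?_
      apply mul_le_mul_of_nonneg_left _ (by positivity)
      apply hP Ge (fun g hg => (hG g (Finset.mem_filter.1 (Finset.mem_filter.1 hg).1).1).1)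
      intro g hg
      rw [hGe, Finset.mem_filter] at hg
      have hgG := (Finset.mem_filter.1 hg.1).1
      exact ⟨(hG g hgG).2.1, n g, d g, hn g hg.1, hpl g hg.1, hg.2⟩
  · have h3 := absorb_sum (η := ε / 2) (A := (A : ℝ)) (by positivity) (by exact_mod_cast hA) K1
      (by omega) X Y Ga n d (fun g => rho (M g X Y)) (by
        intro g hg
        rw [hGa, Finset.mem_filter, not_le] at hg
        have hgG := (Finset.mem_filter.1 hg.1).1
        obtain ⟨ho, hlo, hhi⟩ := hG g hgG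
        have h5 : A * rho (M g X Y) ≤ A * K2 := Nat.mul_le_mul_left _ hhi
        have h6 : K2 ≤ A * K2 := Nat.le_mul_of_pos_left _ (by omega)
        refine ⟨ho, hn g hg.1, by show 2 ≤ rho (M g X Y); omega, ?_, by omega, ?_⟩
        · have h7 : A * rho (M g X Y) ≤ rho (M (prt g (n g) (d g)) X Y) := h5.trans hg.2.le
          exact_mod_cast h7
        · intro x b hb
          have h8 : (M g X Y).filter (fun a => n g ⬝ᵥ a = d g) = M g X Y := by
            apply Finset.filter_true_of_mem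
            intro a ha
            exact hpl g hg.1 a ha
          show rho (M g X Y) ≤ _
          rw [h8, ← off_eq]
          exact rho_le_off _ x b hb)
    exact h3

end Vale.Agent.P054.R
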