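import Vale.Agent.P054.R.Defs
import Vale.Agent.P054.J.Geom

/-! P054, block R, leaf SPAN: `SpanStmt` from `Vale.Agent.P054.J.simplex_joints` with
`S1 = S2 = X ×ˢ Y`: `det = 1` directly (`≤ 5 N²`, `N = |X||Y|`); `det = -1`: replace `Y` by `-Y` and
`g = (Q, v)` by `(-Q, -v)`. A set not contained in a plane has four affinely
independent points. -/

set_option linter.all false
set_option autoImplicit false

namespace Vale.Agent.P054.R

open Finset Matrix

theorem four_pts (S : Finset V3)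
    (h : ∀ (n : V3) (d : ℝ), n ≠ 0 → ∃ a ∈ S, ¬ OnP n d a) :
    ∃ P : Fin 4 → V3, (∀ i, P i ∈ S) ∧ AffineIndependent ℝ P := by
  have e0 : (![1, 0, 0] : V3) ≠ 0 := by
    intro h0
    have := congrFun h0 0
    simp at this
  obtain ⟨p0, hp0, -⟩ := h ![1, 0, 0] 0 e0
  obtain ⟨p1, hp1, h1⟩ := h ![1, 0, 0] (p0 0) e0
  have h1' : p1 0 - p0 0 ≠ 0 := by
    intro h0
    apply h1
    simp only [OnP, dotProduct, Fin.sum_univ_three]
    simp
    linarith
  have hn : (![-(p1 1 - p0 1), p1 0 - p0 0, 0] : V3) ≠ 0 := by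
    intro h0
    have := congrFun h0 1
    simp at this
    exact h1' this
  obtain ⟨p2, hp2, h2⟩ := h ![-(p1 1 - p0 1), p1 0 - p0 0, 0]
    (-(p1 1 - p0 1) * p0 0 + (p1 0 - p0 0) * p0 1) hn
  have h2' : (p1 0 - p0 0) * (p2 1 - p0 1) - (p1 1 - p0 1) * (p2 0 - p0 0) ≠ 0 := by
    intro h0
    apply h2
    simp only [OnP, dotProduct, Fin.sum_univ_three]
    simp
    linarith
  set m : V3 := ![(p1 1 - p0 1) * (p2 2 - p0 2) - (p1 2 - p0 2) * (p2 1 - p0 1),
    (p1 2 - p0 2) * (p2 0 - p0 0) - (p1 0 - p0 0) * (p2 2 - p0 2),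
    (p1 0 - p0 0) * (p2 1 - p0 1) - (p1 1 - p0 1) * (p2 0 - p0 0)] with hm
  have hm0 : m ≠ 0 := by
    intro h0
    have := congrFun h0 2
    rw [hm] at this
    simp at this
    exact h2' this
  obtain ⟨p3, hp3, h3⟩ := h m (m 0 * p0 0 + m 1 * p0 1 + m 2 * p0 2) hm0
  have h3' : m 0 * (p3 0 - p0 0) + m 1 * (p3 1 - p0 1) + m 2 * (p3 2 - p0 2) ≠ 0 := by
    intro h0
    apply h3
    simp only [OnP, dotProduct, Fin.sum_univ_three]
    linarith
  have hm0' : m 0 = (p1 1 - p0 1) * (p2 2 - p0 2) - (p1 2 - p0 2) * (p2 1 - p0 1) := by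
    rw [hm]; rfl
  have hm1' : m 1 = (p1 2 - p0 2) * (p2 0 - p0 0) - (p1 0 - p0 0) * (p2 2 - p0 2) := by
    rw [hm]; rfl
  have hm2' : m 2 = (p1 0 - p0 0) * (p2 1 - p0 1) - (p1 1 - p0 1) * (p2 0 - p0 0) := by
    rw [hm]; rfl
  refine ⟨![p0, p1, p2, p3], ?_, ?_⟩
  · intro i
    fin_cases i
    · exact hp0
    · exact hp1
    · exact hp2
    · exact hp3
  · rw [affineIndependent_iff_of_fintype]
    intro w hw hs
    rw [Finset.weightedVSub_eq_linear_combination _ hw] at hs
    rw [Fin.sum_univ_four] at hs hw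
    have q : ∀ c : Fin 3, w 0 * p0 c + w 1 * p1 c + w 2 * p2 c + w 3 * p3 c = 0 := by
      intro c
      have := congrFun hs c
      simpa using this
    have q' : ∀ c : Fin 3, w 1 * (p1 c - p0 c) + w 2 * (p2 c - p0 c) + w 3 * (p3 c - p0 c) = 0 := by
      intro c
      have h0 := q c
      have : w 0 = -(w 1 + w 2 + w 3) := by linarith
      rw [this] at h0
      linarith
    have w3 : w 3 = 0 := by
      have : w 3 * (m 0 * (p3 0 - p0 0) + m 1 * (p3 1 - p0 1) + m 2 * (p3 2 - p0 2)) = 0 := by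
        rw [hm0', hm1', hm2']
        linear_combination ((p1 1 - p0 1) * (p2 2 - p0 2) - (p1 2 - p0 2) * (p2 1 - p0 1)) * q' 0 +
          ((p1 2 - p0 2) * (p2 0 - p0 0) - (p1 0 - p0 0) * (p2 2 - p0 2)) * q' 1 +
          ((p1 0 - p0 0) * (p2 1 - p0 1) - (p1 1 - p0 1) * (p2 0 - p0 0)) * q' 2
      rcases mul_eq_zero.1 this with h | h
      · exact h
      · exact absurd h h3'
    have w2 : w 2 = 0 := by
      have : w 2 * ((p1 0 - p0 0) * (p2 1 - p0 1) - (p1 1 - p0 1) * (p2 0 - p0 0)) = 0 := by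
        have a0 := q' 0
        have a1 := q' 1
        rw [w3] at a0 a1
        linear_combination (p1 0 - p0 0) * a1 - (p1 1 - p0 1) * a0
      rcases mul_eq_zero.1 this with h | h
      · exact h
      · exact absurd h h2'
    have w1 : w 1 = 0 := by
      have a0 := q' 0
      rw [w3, w2] at a0
      have : w 1 * (p1 0 - p0 0) = 0 := by linarith
      rcases mul_eq_zero.1 this with h | h
      · exact h
      · exact absurd h h1'
    have w0 : w 0 = 0 := by linarith
    intro i
    fin_cases i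
    · exact w0
    · exact w1
    · exact w2
    · exact w3

theorem det_sq {g : Iso} (hg : Orth g) : g.1.det = 1 ∨ g.1.det = -1 := by
  have h := congrArg Matrix.det hg
  rw [Matrix.det_mul, Matrix.det_transpose, Matrix.det_one] at h
  exact mul_self_eq_one_iff.1 h

open scoped Classical in
theorem mem_M {g : Iso} {X Y : Finset V3} {x : V3} : x ∈ M g X Y ↔ x ∈ X ∧ act g x ∈ Y := by
  simp [M]

theorem span : SpanStmt := by
  classical
  intro X Y G hG hM
  set G1 := G.filter (fun g => g.1.det = 1) with hG1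
  set G2 := G.filter (fun g => ¬ g.1.det = 1) with hG2
  have hcard : G1.card + G2.card = G.card := Finset.card_filter_add_card_filter_not _
  have h1 : G1.card ≤ 5 * (X ×ˢ Y).card * (X ×ˢ Y).card := by
    apply Vale.Agent.P054.J.simplex_joints
    intro g hg
    obtain ⟨hg, hd⟩ := Finset.mem_filter.1 hg
    obtain ⟨P, hP, hA⟩ := four_pts _ (hM g hg).2
    have hp : ∀ i, (P i, act g (P i)) ∈ X ×ˢ Y := fun i =>
      Finset.mem_product.2 (mem_M.1 (hP i))
    exact ⟨hG g hg, hd, fun i => (P i, act g (P i)), hp 0, hp 1, hp 2, hp 3, fun i => rfl, hA⟩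
  have h2 : G2.card ≤ 5 * (X ×ˢ Y).card * (X ×ˢ Y).card := by
    let φ : Iso → Iso := fun g => (-g.1, -g.2)
    have hφ : Function.Injective φ := by
      intro g g' h
      have e1 : -g.1 = -g'.1 := congrArg Prod.fst h
      have e2 : -g.2 = -g'.2 := congrArg Prod.snd h
      exact Prod.ext (neg_injective e1) (neg_injective e2)
    have hcY : (Y.image (fun y : V3 => -y)).card = Y.card :=
      Finset.card_image_of_injective _ neg_injective
    have hc : (X ×ˢ Y.image (fun y : V3 => -y)).card = (X ×ˢ Y).card := by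
      rw [Finset.card_product, Finset.card_product, hcY]
    rw [← Finset.card_image_of_injective G2 hφ, ← hc]
    apply Vale.Agent.P054.J.simplex_joints
    intro g' hg'
    obtain ⟨g, hg, rfl⟩ := Finset.mem_image.1 hg'
    obtain ⟨hg, hd⟩ := Finset.mem_filter.1 hg
    obtain ⟨P, hP, hA⟩ := four_pts _ (hM g hg).2
    have hd' : g.1.det = -1 := (det_sq (hG g hg)).resolve_left hd
    have hact : ∀ x, (-g.1).mulVec x + -g.2 = - act g x := by
      intro x
      rw [act, Matrix.neg_mulVec, neg_add]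
    have hp : ∀ i, (P i, - act g (P i)) ∈ X ×ˢ Y.image (fun y : V3 => -y) := fun i =>
      Finset.mem_product.2 ⟨(mem_M.1 (hP i)).1, Finset.mem_image_of_mem _ (mem_M.1 (hP i)).2⟩
    refine ⟨?_, ?_, fun i => (P i, - act g (P i)), hp 0, hp 1, hp 2, hp 3, fun i => hact _, hA⟩
    · show (-g.1)ᵀ * (-g.1) = 1
      rw [Matrix.transpose_neg, neg_mul_neg]
      exact hG g hg
    · show (-g.1).det = 1
      rw [Matrix.det_neg, hd']
      norm_num
  have h3 : G.card ≤ 10 * (X.card * Y.card) ^ 2 := by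
    rw [Finset.card_product] at h1 h2
    calc G.card = G1.card + G2.card := hcard.symm
      _ ≤ 5 * (X.card * Y.card) * (X.card * Y.card) + 5 * (X.card * Y.card) * (X.card * Y.card) :=
        Nat.add_le_add h1 h2
      _ = 10 * (X.card * Y.card) ^ 2 := by ring
  exact_mod_cast h3

end Vale.Agent.P054.R
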