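import Vale.Agent.P054.R.Abs
import Vale.Agent.P054.R.ND
import Vale.Agent.P054.R.Span

/-! P054, block R: the three parts of the sum. -/

set_option linter.all false
set_option autoImplicit false

namespace Vale.Agent.P054.R

open Finset Matrix

/-! ### sizes -/

theorem rho_le_card (S : Finset V3) : rho S ≤ S.card := by
  obtain ⟨x, b, hb, h⟩ := rho_spec S
  have := off_add_on S x b
  omega

theorem M_card_le_X (g : Iso) (X Y : Finset V3) : (M g X Y).card ≤ X.card := by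
  classical
  unfold M
  exact Finset.card_le_card (Finset.filter_subset _ _)

theorem act_inj {g : Iso} (hg : Orth g) {a b : V3} (h : act g a = act g b) : a = b := by
  have h1 := act_dist hg a b
  rw [h] at h1
  simp only [sub_self, ne_eq, OfNat.ofNat_ne_zero, not_false_eq_true, zero_pow,
    Finset.sum_const_zero] at h1
  funext i
  have h2 := (Finset.sum_eq_zero_iff_of_nonneg (fun j _ => sq_nonneg (a j - b j))).1 h1.symm i
    (Finset.mem_univ i)
  have h3 := pow_eq_zero_iff (by norm_num : 2 ≠ 0) |>.1 h2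
  linarith

theorem M_card_le_Y {g : Iso} (hg : Orth g) (X Y : Finset V3) : (M g X Y).card ≤ Y.card := by
  classical
  apply Finset.card_le_card_of_injOn (act g)
  · intro x hx
    have hx' : x ∈ M g X Y := hx
    unfold M at hx'
    rw [Finset.mem_filter] at hx'
    exact hx'.2
  · intro a _ b _ h
    exact act_inj hg h

/-! ### non dominated part -/

theorem nd_sum {η ε : ℝ} (hη : 0 ≤ η) (hε : 0 ≤ ε) (K1 B : ℕ) (hB : 1 ≤ B) (X Y : Finset V3)
    (Xc Yc : ℕ → Finset V3) (hXc : ∀ i, B * (Xc i).card ≤ 2 * X.card)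
    (hYc : ∀ j, B * (Yc j).card ≤ 2 * Y.card) (CR : ℝ) (hCR : 0 ≤ CR)
    (IH : ∀ i j, ∀ G : Finset Iso, (∀ g ∈ G, Orth g) →
      Re η K1 G (Xc i) (Yc j) ≤ CR * (((Xc i).card : ℝ) * (Yc j).card) ^ (2 + ε))
    (G : Finset Iso) (hG : ∀ g ∈ G, Orth g)
    (hnd : ∀ g ∈ G, ∃ Vis : Finset (ℕ × ℕ), Vis ⊆ Finset.range (B + 1) ×ˢ Finset.range (B + 1) ∧
      Vis.card ≤ 500 * (B + 1) ∧
      rho (M g X Y) ≤ 8 * ∑ v ∈ Vis, rK K1 (M g (Xc v.1) (Yc v.2))) :
    ∑ g ∈ G, ((rho (M g X Y) : ℕ) : ℝ) ^ (3 + η) ≤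
      (8:ℝ) ^ (3 + η) * (500 * ((B:ℝ) + 1)) ^ (2 + η) * ((B:ℝ) + 1) ^ 2 * CR *
        (4 * ((X.card : ℝ) * Y.card) / (B:ℝ) ^ 2) ^ (2 + ε) := by
  have hrK : ∀ S : Finset V3, ((rK K1 S : ℕ) : ℝ) ^ (3 + η) = wt η K1 S := by
    intro S
    unfold rK wt
    split_ifs with h
    · rfl
    · rw [Nat.cast_zero, Real.zero_rpow (by linarith)]
  have hBpos : (0:ℝ) < B := by exact_mod_cast hB
  have h1 : ∀ g ∈ G, ((rho (M g X Y) : ℕ) : ℝ) ^ (3 + η) ≤
      (8:ℝ) ^ (3 + η) * (500 * ((B:ℝ) + 1)) ^ (2 + η) *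
        ∑ v ∈ Finset.range (B + 1) ×ˢ Finset.range (B + 1), wt η K1 (M g (Xc v.1) (Yc v.2)) := by
    intro g hg
    obtain ⟨Vis, hsub, hcard, hle⟩ := hnd g hg
    have h2 : ((rho (M g X Y) : ℕ) : ℝ) ≤ 8 * ∑ v ∈ Vis, ((rK K1 (M g (Xc v.1) (Yc v.2)) : ℕ) : ℝ) := by
      exact_mod_cast hle
    have hS0 : (0:ℝ) ≤ ∑ v ∈ Vis, ((rK K1 (M g (Xc v.1) (Yc v.2)) : ℕ) : ℝ) :=
      Finset.sum_nonneg (fun _ _ => Nat.cast_nonneg _)
    have h3 := Vale.Agent.P054.Y.Sec.power_mean Vis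
      (fun v => ((rK K1 (M g (Xc v.1) (Yc v.2)) : ℕ) : ℝ)) (fun _ _ => Nat.cast_nonneg _) hη
    have h4 : (Vis.card : ℝ) ≤ 500 * ((B:ℝ) + 1) := by exact_mod_cast hcard
    calc ((rho (M g X Y) : ℕ) : ℝ) ^ (3 + η)
        ≤ (8 * ∑ v ∈ Vis, ((rK K1 (M g (Xc v.1) (Yc v.2)) : ℕ) : ℝ)) ^ (3 + η) :=
          Real.rpow_le_rpow (Nat.cast_nonneg _) h2 (by linarith)
      _ = (8:ℝ) ^ (3 + η) * (∑ v ∈ Vis, ((rK K1 (M g (Xc v.1) (Yc v.2)) : ℕ) : ℝ)) ^ (3 + η) :=
          Real.mul_rpow (by norm_num) hS0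
      _ ≤ (8:ℝ) ^ (3 + η) * ((Vis.card : ℝ) ^ (2 + η) *
            ∑ v ∈ Vis, ((rK K1 (M g (Xc v.1) (Yc v.2)) : ℕ) : ℝ) ^ (3 + η)) :=
          mul_le_mul_of_nonneg_left h3 (by positivity)
      _ ≤ (8:ℝ) ^ (3 + η) * ((500 * ((B:ℝ) + 1)) ^ (2 + η) *
            ∑ v ∈ Finset.range (B + 1) ×ˢ Finset.range (B + 1), wt η K1 (M g (Xc v.1) (Yc v.2))) := by
          apply mul_le_mul_of_nonneg_left _ (by positivity)
          apply mul_le_mul
          · exact Real.rpow_le_rpow (Nat.cast_nonneg _) h4 (by linarith)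
          · calc ∑ v ∈ Vis, ((rK K1 (M g (Xc v.1) (Yc v.2)) : ℕ) : ℝ) ^ (3 + η)
                = ∑ v ∈ Vis, wt η K1 (M g (Xc v.1) (Yc v.2)) :=
                  Finset.sum_congr rfl (fun v _ => hrK _)
              _ ≤ _ := Finset.sum_le_sum_of_subset_of_nonneg hsub (fun _ _ _ => wt_nonneg _ _ _)
          · exact Finset.sum_nonneg (fun _ _ => by positivity)
          · positivity
      _ = _ := by ring
  have hcell : ∀ i j, (((Xc i).card : ℝ) * (Yc j).card) ≤ 4 * ((X.card : ℝ) * Y.card) / (B:ℝ) ^ 2 := by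
    intro i j
    rw [le_div_iff₀ (by positivity)]
    have h2 : (B:ℝ) * (Xc i).card ≤ 2 * X.card := by exact_mod_cast hXc i
    have h3 : (B:ℝ) * (Yc j).card ≤ 2 * Y.card := by exact_mod_cast hYc j
    calc ((Xc i).card : ℝ) * (Yc j).card * (B:ℝ) ^ 2 = ((B:ℝ) * (Xc i).card) * ((B:ℝ) * (Yc j).card) := by ring
      _ ≤ (2 * X.card) * (2 * Y.card) := mul_le_mul h2 h3 (by positivity) (by positivity)
      _ = _ := by ring
  calc ∑ g ∈ G, ((rho (M g X Y) : ℕ) : ℝ) ^ (3 + η)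
      ≤ ∑ g ∈ G, (8:ℝ) ^ (3 + η) * (500 * ((B:ℝ) + 1)) ^ (2 + η) *
        ∑ v ∈ Finset.range (B + 1) ×ˢ Finset.range (B + 1), wt η K1 (M g (Xc v.1) (Yc v.2)) :=
        Finset.sum_le_sum h1
    _ = (8:ℝ) ^ (3 + η) * (500 * ((B:ℝ) + 1)) ^ (2 + η) *
        ∑ v ∈ Finset.range (B + 1) ×ˢ Finset.range (B + 1), Re η K1 G (Xc v.1) (Yc v.2) := by
        rw [← Finset.mul_sum, Finset.sum_comm]
        rfl
    _ ≤ (8:ℝ) ^ (3 + η) * (500 * ((B:ℝ) + 1)) ^ (2 + η) *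
        ∑ v ∈ Finset.range (B + 1) ×ˢ Finset.range (B + 1),
          CR * (4 * ((X.card : ℝ) * Y.card) / (B:ℝ) ^ 2) ^ (2 + ε) := by
        apply mul_le_mul_of_nonneg_left _ (by positivity)
        apply Finset.sum_le_sum
        intro v _
        refine (IH v.1 v.2 G hG).trans (mul_le_mul_of_nonneg_left ?_ hCR)
        exact Real.rpow_le_rpow (by positivity) (hcell _ _) (by linarith)
    _ = _ := by
        rw [Finset.sum_const, Finset.card_product, Finset.card_range, nsmul_eq_mul]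
        push_cast
        ring

/-! ### two rich lines -/

theorem two_off {S : Finset V3} {k : ℕ} {x1 b1 x2 b2 n : V3} {d : ℝ} (hb1 : b1 ≠ 0) (hb2 : b2 ≠ 0)
    (hne : DiffL x1 b1 x2 b2) (h1 : LinP x1 b1 n d) (h2 : LinP x2 b2 n d)
    (hk1 : k ≤ on S x1 b1) (hk2 : k ≤ on S x2 b2) (x b : V3) (hb : b ≠ 0) :
    open scoped Classical in
    k - 1 ≤ ((S.filter (fun a => n ⬝ᵥ a = d)).filter (Vale.Agent.P054.Y.Sec.Off x b)).card := by
  classical
  have key : ∀ (x' b' : V3), b' ≠ 0 → DiffL x b x' b' → LinP x' b' n d → k ≤ on S x' b' →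
      k - 1 ≤ ((S.filter (fun a => n ⬝ᵥ a = d)).filter (Vale.Agent.P054.Y.Sec.Off x b)).card := by
    intro x' b' hb' hd hl hk
    unfold on at hk
    have h3 : (S.filter (fun a => OnL x' b' a)) =
        ((S.filter (fun a => OnL x' b' a)).filter (fun a => OnL x b a)) ∪
        ((S.filter (fun a => OnL x' b' a)).filter (fun a => ¬ OnL x b a)) :=
      (Finset.filter_union_filter_not_eq _ _).symm
    have h4 : ((S.filter (fun a => OnL x' b' a)).filter (fun a => OnL x b a)).card ≤ 1 := by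
      rw [Finset.card_le_one]
      intro a ha c hc
      rw [Finset.mem_filter, Finset.mem_filter] at ha hc
      exact DiffL_inter hb hb' hd ha.2 ha.1.2 hc.2 hc.1.2
    have h5 : (S.filter (fun a => OnL x' b' a)).card ≤
        ((S.filter (fun a => OnL x' b' a)).filter (fun a => OnL x b a)).card +
        ((S.filter (fun a => OnL x' b' a)).filter (fun a => ¬ OnL x b a)).card := by
      conv_lhs => rw [h3]
      exact Finset.card_union_le _ _
    have h6 : ((S.filter (fun a => OnL x' b' a)).filter (fun a => ¬ OnL x b a)).card ≤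
        ((S.filter (fun a => n ⬝ᵥ a = d)).filter (Vale.Agent.P054.Y.Sec.Off x b)).card := by
      apply Finset.card_le_card
      intro a ha
      rw [Finset.mem_filter, Finset.mem_filter] at ha
      rw [Finset.mem_filter, Finset.mem_filter]
      exact ⟨⟨ha.1.1, LinP_OnP hb' hl ha.1.2⟩, ha.2⟩
    omega
  by_cases hd1 : DiffL x b x1 b1
  · exact key x1 b1 hb1 hd1 h1 hk1
  · apply key x2 b2 hb2 _ h2 hk2
    intro hd2
    unfold DiffL at hd1
    rw [not_not] at hd1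
    exact hne (fun a => (hd1 a).symm.trans (hd2 a))

end Vale.Agent.P054.R
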